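import Vale.Agent.P098.Jet.Frame

/-!
# P098: the gradient of a regular cone has length at most one

A maximum of `|∇w|² - ε w / |x|` on the sphere cannot lie in the positivity set, where this function is
strictly subharmonic. Hence the free boundary is mean convex.
-/

namespace Vale.Agent.P098.Jet

open Vale.Agent.P098.Cone
open Set Filter Topology Finset
open scoped ContDiff

noncomputable section

variable {d : ℕ} {u w : (Fin d → ℝ) → ℝ} {O : Set (Fin d → ℝ)}

/-- The reciprocal of the length. -/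
def invLen (y : Fin d → ℝ) : ℝ := (√(dot y y))⁻¹

theorem invLen_pos {y : Fin d → ℝ} (hy : y ≠ 0) : 0 < invLen y :=
  inv_pos.2 (Real.sqrt_pos.2 (dot_self_pos hy))

theorem invLen_sq {y : Fin d → ℝ} (hy : y ≠ 0) : invLen y ^ 2 * dot y y = 1 := by
  rw [invLen, inv_pow, Real.sq_sqrt (dot_self_nonneg y), inv_mul_cancel₀ (dot_self_pos hy).ne']

theorem differentiableAt_invLen {y : Fin d → ℝ} (hy : y ≠ 0) : DifferentiableAt ℝ invLen y :=
  ((contDiff_dot_self.differentiable (by simp) y).sqrt (dot_self_pos hy).ne').fun_inv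
    (Real.sqrt_pos.2 (dot_self_pos hy)).ne'

theorem pd_invLen {y : Fin d → ℝ} (hy : y ≠ 0) (k : Fin d) :
    pd invLen k y = -(y k * invLen y ^ 3) := by
  have hR := dot_self_pos hy
  have h1 : HasDerivAt (fun t : ℝ => (√t)⁻¹) (-(1 / (2 * √(dot y y))) / √(dot y y) ^ 2) (dot y y) :=
    (Real.hasDerivAt_sqrt hR.ne').fun_inv (Real.sqrt_pos.2 hR).ne'
  refine (pd_comp (f := fun y : Fin d → ℝ => dot y y) h1 (contDiff_dot_self.differentiable (by simp) y) k).trans ?_
  rw [pd_dot_self, invLen]
  field_simp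

theorem invLen_smul {r : ℝ} (hr : 0 < r) (y : Fin d → ℝ) : invLen (r • y) = r⁻¹ * invLen y := by
  have e : dot (r • y) (r • y) = r ^ 2 * dot y y := by
    simp only [dot, Pi.smul_apply, smul_eq_mul, mul_sum]; exact sum_congr rfl fun _ _ => by ring
  rw [invLen, e, Real.sqrt_mul (sq_nonneg r), Real.sqrt_sq hr.le, mul_inv, invLen]

theorem grad_smul (h : RegularCone u O w) {z : Fin d → ℝ} (hz : 0 < u z) {r : ℝ} (hr : 0 < r) :
    w (r • z) = r * w z ∧ grad w (r • z) = grad w z := by
  have hu : ∀ y, 0 < u y → 0 < u (r • y) := fun y hy => by rw [h.homog r y hr]; exact mul_pos hr hy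
  have hw : ∀ y, 0 < u y → w (r • y) = r * w y := fun y hy => by
    rw [h.agree _ (h.mem_of_pos (hu y hy)) (hu y hy), h.agree _ (h.mem_of_pos hy) hy, h.homog r y hr]
  refine ⟨hw z hz, funext fun i => ?_⟩
  have hd : DifferentiableAt ℝ w (r • z) :=
    differentiableAt_of_smooth h.smooth h.isOpen (h.mem_of_pos (hu z hz))
  have h1 : HasFDerivAt (fun y => w (r • y))
      ((fderiv ℝ w (r • z)).comp (r • ContinuousLinearMap.id ℝ (Fin d → ℝ))) z :=
    hd.hasFDerivAt.comp z ((hasFDerivAt_id z).const_smul r)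
  have he : (fun y => w (r • y)) =ᶠ[𝓝 z] fun y => r * w y := by
    filter_upwards [h.isOpen_pos.mem_nhds hz] with y hy using hw y hy
  have h2 := pd_congr he i
  rw [pd, h1.fderiv, pd_mul (differentiableAt_const _)
    (differentiableAt_of_smooth h.smooth h.isOpen (h.mem_of_pos hz)), pd_const, mul_zero, add_zero] at h2
  simp only [ContinuousLinearMap.comp_apply, ContinuousLinearMap.smul_apply,
    ContinuousLinearMap.id_apply, map_smul, smul_eq_mul] at h2
  exact mul_left_cancel₀ hr.ne' h2

/-- At a local maximum the pure second derivatives are not positive. -/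
theorem hess_nonpos_of_isLocalMax {f : (Fin d → ℝ) → ℝ} {V : Set (Fin d → ℝ)} (hV : IsOpen V)
    (hf : ContDiffOn ℝ 2 f V) {y : Fin d → ℝ} (hy : y ∈ V) (hmax : IsLocalMax f y) (k : Fin d) :
    hess f k k y ≤ 0 := by
  set e : Fin d → ℝ := Pi.single k 1
  set g : ℝ → ℝ := fun t => f (y + t • e)
  have hl : Continuous fun t : ℝ => y + t • e := by fun_prop
  have hl0 : Tendsto (fun t : ℝ => y + t • e) (𝓝 0) (𝓝 y) := by simpa using hl.tendsto 0
  have hline : ∀ t : ℝ, HasDerivAt (fun s : ℝ => y + s • e) e t := fun t => by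
    simpa using ((hasDerivAt_id t).smul_const e).const_add y
  have hd : ∀ᶠ t in 𝓝 (0 : ℝ), HasDerivAt g (pd f k (y + t • e)) t := by
    filter_upwards [hl0.eventually (hV.mem_nhds hy)] with t ht
    exact (differentiableAt_of_smooth hf hV ht).hasFDerivAt.comp_hasDerivAt t (hline t)
  have h2 : HasDerivAt (fun t : ℝ => pd f k (y + t • e)) (hess f k k y) 0 :=
    HasFDerivAt.comp_hasDerivAt_of_eq (0 : ℝ)
      (differentiableAt_of_smooth (contDiffOn_pd hf hV k) hV hy).hasFDerivAt (hline 0) (by simp)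
  have hdd : HasDerivAt (deriv g) (hess f k k y) 0 :=
    h2.congr_of_eventuallyEq (hd.mono fun t ht => ht.deriv)
  have hg : IsLocalMax g 0 := by
    have := hl0.eventually hmax
    filter_upwards [this] with t ht
    simpa [g] using ht
  by_contra hpos
  have hmin : IsLocalMin g 0 := isLocalMin_of_deriv_deriv_pos (by rw [hdd.deriv]; exact not_le.1 hpos)
    hg.deriv_eq_zero hd.self_of_nhds.continuousAt
  have hc : g =ᶠ[𝓝 0] fun _ => g 0 := by
    filter_upwards [hmin, hg] with t h1 h2' using le_antisymm h2' h1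
  have h3 : HasDerivAt (deriv g) 0 0 :=
    (hasDerivAt_const (0 : ℝ) (0 : ℝ)).congr_of_eventuallyEq
      (hc.eventuallyEq_nhds.mono fun t ht => by rw [ht.deriv_eq, deriv_const])
  exact hpos (le_of_eq (hdd.unique h3))

/-- The penalised squared gradient. -/
def pen (w : (Fin d → ℝ) → ℝ) (ε : ℝ) (y : Fin d → ℝ) : ℝ :=
  dot (grad w y) (grad w y) - ε * (w y * invLen y)

theorem contDiffOn_pen (h : RegularCone u O w) (h0 : (0 : Fin d → ℝ) ∉ O) (ε : ℝ) :
    ContDiffOn ℝ 2 (pen w ε) O := by
  have hn : ContDiffOn ℝ 2 (invLen (d := d)) O :=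
    ((contDiff_two_dot_self.contDiffOn).sqrt fun y hy => (dot_self_pos fun e => h0 (by rwa [e] at hy)).ne').inv
      fun y hy => (Real.sqrt_pos.2 (dot_self_pos fun e => h0 (by rwa [e] at hy))).ne'
  exact (ContDiffOn.sum fun i _ => ((contDiffOn_pd h.smooth h.isOpen i).mul
    (contDiffOn_pd h.smooth h.isOpen i)).of_le (by norm_num)).sub
      (contDiffOn_const.mul ((h.smooth.of_le (by norm_num)).mul hn))

theorem lap_pen (h : RegularCone u O w) (h0 : (0 : Fin d → ℝ) ∉ O) {z : Fin d → ℝ} (hz : 0 < u z)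
    (ε : ℝ) : lap (pen w ε) z
      = 2 * dot2 (hessMat w z) (hessMat w z) + ε * ((d : ℝ) - 1) * (w z * invLen z ^ 3) := by
  have hzO := h.mem_of_pos hz
  have hzne : z ≠ 0 := h.ne_zero_of_pos hz
  have hp : ∀ i, ∀ y ∈ O, DifferentiableAt ℝ (pd w i) y := fun i y hy =>
    differentiableAt_of_smooth (contDiffOn_pd h.smooth h.isOpen i) h.isOpen hy
  have hw : ∀ y ∈ O, DifferentiableAt ℝ w y := fun y hy =>
    differentiableAt_of_smooth h.smooth h.isOpen hy
  have hn : ∀ y ∈ O, DifferentiableAt ℝ invLen y := fun y hy =>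
    differentiableAt_invLen fun e => h0 (e ▸ hy)
  have e1 : ∀ k, ∀ y ∈ O, pd (pen w ε) k y = (∑ i, 2 * pd w i y * hess w i k y)
      - ε * (pd w k y * invLen y - w y * (y k * invLen y ^ 3)) := by
    intro k y hy
    have hP : DifferentiableAt ℝ (fun y => dot (grad w y) (grad w y)) y :=
      DifferentiableAt.fun_sum fun i _ => (hp i y hy).mul (hp i y hy)
    rw [show pen w ε = fun y => dot (grad w y) (grad w y) - ε * (w y * invLen y) from rfl,
      pd_sub hP ((differentiableAt_const _).fun_mul ((hw y hy).fun_mul (hn y hy))),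
      pd_mul (differentiableAt_const _) ((hw y hy).fun_mul (hn y hy)), pd_const,
      pd_mul (hw y hy) (hn y hy), pd_invLen (fun e => h0 (e ▸ hy)),
      show (fun y => dot (grad w y) (grad w y)) = fun y => ∑ i, pd w i y * pd w i y from rfl,
      pd_sum _ (F := fun i y => pd w i y * pd w i y) (fun i _ => (hp i y hy).mul (hp i y hy))]
    simp only [pd_mul (hp _ y hy) (hp _ y hy)]
    rw [show (∑ i, (pd w i y * pd (pd w i) k y + pd w i y * pd (pd w i) k y))
      = ∑ i, 2 * pd w i y * hess w i k y from sum_congr rfl fun i _ => by simp only [hess]; ring]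
    ring
  have e2 : ∀ k, hess (pen w ε) k k z = (∑ i, (2 * hess w i k z * hess w i k z
      + 2 * pd w i z * third w z i k k))
      - ε * (hess w k k z * invLen z - 2 * (pd w k z * (z k * invLen z ^ 3))
        - w z * (invLen z ^ 3 - 3 * (z k * z k) * invLen z ^ 5)) := by
    intro k
    have hh : ∀ i, DifferentiableAt ℝ (hess w i k) z := fun i =>
      differentiableAt_of_smooth (contDiffOn_hess h.smooth h.isOpen i k) h.isOpen hzO
    have ev : (fun y => pd (pen w ε) k y) =ᶠ[𝓝 z] fun y => (∑ i, 2 * pd w i y * hess w i k y)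
        - ε * (pd w k y * invLen y - w y * (y k * invLen y ^ 3)) := by
      filter_upwards [h.isOpen.mem_nhds hzO] with y hy using e1 k y hy
    have d3 : DifferentiableAt ℝ (fun y : Fin d → ℝ => invLen y ^ 3) z := (hn z hzO).fun_pow 3
    have d4 : DifferentiableAt ℝ (fun y : Fin d → ℝ => y k * invLen y ^ 3) z :=
      (differentiableAt_apply k z).fun_mul d3
    have d1 : ∀ i, DifferentiableAt ℝ (fun y => 2 * pd w i y * hess w i k y) z := fun i =>
      ((differentiableAt_const _).fun_mul (hp i z hzO)).fun_mul (hh i)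
    have d5 : DifferentiableAt ℝ (fun y => pd w k y * invLen y) z := (hp k z hzO).fun_mul (hn z hzO)
    have d6 : DifferentiableAt ℝ (fun y => w y * (y k * invLen y ^ 3)) z := (hw z hzO).fun_mul d4
    rw [hess, pd_congr ev, pd_sub (DifferentiableAt.fun_sum fun i _ => d1 i)
        ((differentiableAt_const _).fun_mul (d5.fun_sub d6)),
      pd_sum _ (F := fun i y => 2 * pd w i y * hess w i k y) (fun i _ => d1 i),
      pd_mul (differentiableAt_const _) (d5.fun_sub d6), pd_const, pd_sub d5 d6,
      pd_mul (hp k z hzO) (hn z hzO), pd_mul (hw z hzO) d4, pd_mul (differentiableAt_apply k z) d3,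
      pd_coord, if_pos rfl,
      pd_comp (φ := fun t => t ^ 3) (hasDerivAt_pow 3 (invLen z)) (hn z hzO) k, pd_invLen hzne]
    simp only [pd_mul ((differentiableAt_const _).fun_mul (hp _ z hzO)) (hh _),
      pd_mul (differentiableAt_const _) (hp _ z hzO), pd_const]
    rw [show ∑ i, (2 * pd w i z * pd (hess w i k) k z + hess w i k z * (2 * pd (pd w i) k z + pd w i z * 0))
      = ∑ i, (2 * hess w i k z * hess w i k z + 2 * pd w i z * third w z i k k) from
        sum_congr rfl fun i _ => by simp only [hess, third]; ring]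
    simp only [hess]
    push_cast
    ring
  have t1 : ∑ k, ∑ i, 2 * pd w i z * third w z i k k = 0 := by
    rw [sum_comm]
    refine sum_eq_zero fun i _ => ?_
    rw [← mul_sum, show ∑ k, third w z i k k = ∑ k, third w z k k i from sum_congr rfl fun k _ => by
      rw [third_comm₁ h.smooth h.isOpen hzO i k k, third_comm₂ h.smooth h.isOpen hzO k i k],
      h.third_trace_pos hz, mul_zero]
  have t2 : ∑ k, ∑ i, 2 * hess w i k z * hess w i k z = 2 * dot2 (hessMat w z) (hessMat w z) := by
    rw [sum_comm]; simp only [dot2, hessMat, mul_sum, mul_assoc]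
  have t3 : ∑ k, pd w k z * (z k * invLen z ^ 3) = w z * invLen z ^ 3 := by
    rw [← h.euler_pos hz, dot, sum_mul]
    exact sum_congr rfl fun k _ => by simp only [grad]; ring
  have t4 : ∑ k, z k * z k = dot z z := rfl
  simp only [lap, e2, sum_sub_distrib, sum_add_distrib, ← mul_sum, t1, t2, t3, ← sum_mul,
    h.trace_pos hz, sum_const, card_univ, Fintype.card_fin, nsmul_eq_mul, t4, zero_mul, add_zero]
  linear_combination (-3 * ε * w z * invLen z ^ 3) * invLen_sq hzne

theorem pen_smul (h : RegularCone u O w) {z : Fin d → ℝ} (hz : 0 < u z) {r : ℝ} (hr : 0 < r) (ε : ℝ) :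
    pen w ε (r • z) = pen w ε z := by
  obtain ⟨h1, h2⟩ := grad_smul h hz hr
  simp only [pen, h1, h2, invLen_smul hr]
  field_simp

theorem grad_sq_le_one_pos (h : RegularCone u O w) (h0 : (0 : Fin d → ℝ) ∉ O) (hd : 2 ≤ d)
    {z : Fin d → ℝ} (hz : 0 < u z) : dot (grad w z) (grad w z) ≤ 1 := by
  set S := closure {y | 0 < u y} ∩ {y : Fin d → ℝ | 1 ≤ dot y y ∧ dot y y ≤ 1}
  have hS : IsCompact S := (isCompact_shell 1 1).inter_left isClosed_closure
  have hS0 : ∀ y ∈ S, y ≠ 0 := fun y hy e => by
    have := hy.2.1; rw [e] at this; simp [dot] at this; linarith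
  have hSO : S ⊆ O := fun y hy => h.cover y hy.1 (hS0 y hy)
  have hnorm : ∀ y, 0 < u y → 0 < u (invLen y • y) ∧ invLen y • y ∈ S := fun y hy => by
    have hn := invLen_pos (h.ne_zero_of_pos hy)
    have hp : 0 < u (invLen y • y) := by rw [h.homog _ y hn]; exact mul_pos hn hy
    have e : dot (invLen y • y) (invLen y • y) = 1 := by
      rw [← invLen_sq (h.ne_zero_of_pos hy)]
      simp only [dot, Pi.smul_apply, smul_eq_mul, mul_sum]; exact sum_congr rfl fun _ _ => by ring
    exact ⟨hp, subset_closure hp, e.ge, e.le⟩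
  have key : ∀ ε : ℝ, 0 < ε → dot (grad w z) (grad w z) ≤ 1 + ε * (w z * invLen z) := by
    intro ε hε
    obtain ⟨y, hy, hmax⟩ := hS.exists_isMaxOn ⟨_, (hnorm z hz).2⟩
      ((contDiffOn_pen h h0 ε).continuousOn.mono hSO)
    have hQ : pen w ε z ≤ pen w ε y := by
      rw [← pen_smul h hz (invLen_pos (h.ne_zero_of_pos hz)) ε]
      exact hmax (hnorm z hz).2
    have hy1 : pen w ε y ≤ 1 := by
      rcases h.frontier_or_pos hy.1 with hf | hp
      · obtain ⟨hN, -, -⟩ := h.free_boundary h0 hf (hSO hy)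
        have hw0 : w y = 0 := by rw [h.w_eq hy.1 (hSO hy), h.u_eq_zero_of_frontier hf]
        simp [pen, hN, hw0]
      · exfalso
        have hloc : IsLocalMax (pen w ε) y := by
          filter_upwards [h.isOpen_pos.mem_nhds hp] with x hx
          rw [← pen_smul h hx (invLen_pos (h.ne_zero_of_pos hx)) ε]
          exact hmax (hnorm x hx).2
        have hle : lap (pen w ε) y ≤ 0 := sum_nonpos fun k _ =>
          hess_nonpos_of_isLocalMax h.isOpen (contDiffOn_pen h h0 ε) (hSO hy) hloc k
        rw [lap_pen h h0 hp] at hle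
        have hd' : (2 : ℝ) ≤ d := by exact_mod_cast hd
        have hwp : 0 < w y := by rw [h.agree y (hSO hy) hp]; exact hp
        have : 0 < ε * ((d : ℝ) - 1) * (w y * invLen y ^ 3) :=
          mul_pos (mul_pos hε (by linarith)) (mul_pos hwp (pow_pos (invLen_pos (hS0 y hy)) 3))
        linarith [dot2_self_nonneg (hessMat w y)]
    have := hQ.trans hy1
    simp only [pen] at this
    linarith
  refine le_of_forall_pos_le_add fun e he => ?_
  set a := |w z * invLen z| + 1
  have ha : 0 < a := by positivity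
  refine (key (e / a) (div_pos he ha)).trans (add_le_add_right ?_ _)
  calc e / a * (w z * invLen z) ≤ e / a * a :=
        mul_le_mul_of_nonneg_left (by have := le_abs_self (w z * invLen z); simp only [a]; linarith)
          (div_pos he ha).le
    _ = e := div_mul_cancel₀ e ha.ne'

/-- The gradient has length at most one. -/
theorem grad_sq_le_one (h : RegularCone u O w) (h0 : (0 : Fin d → ℝ) ∉ O) (hd : 2 ≤ d) {z : Fin d → ℝ}
    (hz : z ∈ closure {y | 0 < u y}) (hzO : z ∈ O) : dot (grad w z) (grad w z) ≤ 1 := by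
  have := h.eq_zero_of_pos (g := fun y => max (dot (grad w y) (grad w y) - 1) 0)
    ((show Continuous fun s : ℝ => max (s - 1) 0 by fun_prop).comp_continuousOn
      (continuousOn_finsetSum _ fun i _ => (contDiffOn_pd h.smooth h.isOpen i).continuousOn.mul
        (contDiffOn_pd h.smooth h.isOpen i).continuousOn))
    (fun y hy => max_eq_right (by linarith [grad_sq_le_one_pos h h0 hd hy])) hz hzO
  simp only [max_eq_right_iff] at this
  linarith

/-- The free boundary is mean convex. -/
theorem meanCurv_nonneg (h : RegularCone u O w) (h0 : (0 : Fin d → ℝ) ∉ O) (hd : 2 ≤ d)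
    {y : Fin d → ℝ} (hy : y ∈ frontier {z | 0 < u z}) (hyO : y ∈ O) : 0 ≤ meanCurv w y := by
  obtain ⟨hN, hAN, -⟩ := h.free_boundary h0 hy hyO
  set N := grad w y
  have hw0 : w y = 0 := by
    rw [h.w_eq (RegularCone.mem_closure_of_frontier hy) hyO, h.u_eq_zero_of_frontier hy]
  have hline : HasDerivAt (fun t : ℝ => y + t • N) N 0 := by
    simpa using ((hasDerivAt_id (0 : ℝ)).smul_const N).const_add y
  have hl0 : Tendsto (fun t : ℝ => y + t • N) (𝓝[>] 0) (𝓝 y) := by
    have : Continuous fun t : ℝ => y + t • N := by fun_prop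
    simpa using (this.tendsto 0).mono_left nhdsWithin_le_nhds
  have h1 : HasDerivAt (fun t : ℝ => w (y + t • N)) 1 0 := by
    have := HasFDerivAt.comp_hasDerivAt_of_eq (0 : ℝ)
      (differentiableAt_of_smooth h.smooth h.isOpen hyO).hasFDerivAt hline (by simp)
    rwa [fderiv_eq_sum, show ∑ i, N i * pd w i y = 1 from hN] at this
  set P : (Fin d → ℝ) → ℝ := fun x => ∑ i, pd w i x * pd w i x
  have hp : ∀ i, DifferentiableAt ℝ (pd w i) y := fun i =>
    differentiableAt_of_smooth (contDiffOn_pd h.smooth h.isOpen i) h.isOpen hyO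
  have hPd : DifferentiableAt ℝ P y := DifferentiableAt.fun_sum fun i _ => (hp i).mul (hp i)
  have h2 : HasDerivAt (fun t : ℝ => P (y + t • N)) (-2 * meanCurv w y) 0 := by
    refine (HasFDerivAt.comp_hasDerivAt_of_eq (0 : ℝ) hPd.hasFDerivAt hline (by simp)).congr_deriv ?_
    rw [fderiv_eq_sum]
    have e : ∀ k, pd P k y = 2 * app (hessMat w y) N k := fun k => by
      rw [show P = fun x => ∑ i, pd w i x * pd w i x from rfl,
        pd_sum _ (F := fun i x => pd w i x * pd w i x) (fun i _ => (hp i).mul (hp i))]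
      simp only [pd_mul (hp _) (hp _), app, mul_sum]
      exact sum_congr rfl fun i _ => by
        rw [show pd (pd w i) k y = hess w i k y from rfl, hess_comm_of h.smooth h.isOpen hyO i k]
        simp only [hessMat, N, grad]
        ring
    simp only [e, hAN]
    rw [show ∑ i, N i * (2 * (-meanCurv w y * N i)) = -2 * meanCurv w y * dot N N by
      rw [dot, mul_sum]; exact sum_congr rfl fun i _ => by ring, hN, mul_one]
  have hpos : ∀ᶠ t in 𝓝[>] (0 : ℝ), 0 < u (y + t • N) := by
    have h3 := ((hasDerivAt_iff_tendsto_slope.1 h1).mono_left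
      (nhdsWithin_mono 0 fun s hs => ne_of_gt hs)).eventually (lt_mem_nhds one_pos)
    filter_upwards [h3, hl0.eventually (h.pos_near hy hyO fun e => h0 (e ▸ hyO)), self_mem_nhdsWithin]
      with t ht ht' (ht0 : 0 < t)
    refine ht' ?_
    rw [slope_def_field] at ht
    simpa [hw0] using (div_pos_iff_of_pos_right (sub_pos.2 ht0)).1 ht
  have h4 : Tendsto (slope (fun t : ℝ => P (y + t • N)) 0) (𝓝[>] 0) (𝓝 (-2 * meanCurv w y)) :=
    (hasDerivAt_iff_tendsto_slope.1 h2).mono_left (nhdsWithin_mono 0 fun s hs => ne_of_gt hs)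
  have h5 : -2 * meanCurv w y ≤ 0 := le_of_tendsto h4 (by
    filter_upwards [hpos, self_mem_nhdsWithin] with t ht (ht0 : 0 < t)
    rw [slope_def_field]
    refine div_nonpos_of_nonpos_of_nonneg ?_ (by linarith)
    have e0 : P (y + (0 : ℝ) • N) = 1 := by rw [zero_smul, add_zero]; exact hN
    rw [e0]
    have : P (y + t • N) ≤ 1 := grad_sq_le_one_pos h h0 hd ht
    linarith)
  linarith

end

end Vale.Agent.P098.Jet
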