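import Vale.Agent.P098.Jet.Test

/-!
# P098: two-jets of one-homogeneous harmonic functions

A jet is `(x, u, ∇u, ∇²u)`; `T` stands for the third derivatives. On the free boundary the normal
derivative of the jet is known up to a vector `q` orthogonal to the normal.
-/

namespace Vale.Agent.P098.Jet

open Vale.Agent.P098.Cone
open Set Filter Topology Finset
open scoped ContDiff

noncomputable section

variable {d : ℕ}

/-- The space of two-jets. -/
abbrev J (d : ℕ) := (Fin d → ℝ) × ℝ × (Fin d → ℝ) × (Fin d → Fin d → ℝ)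

/-- The space of tensors of order three. -/
abbrev Ten (d : ℕ) := Fin d → Fin d → Fin d → ℝ

/-- The jet of a function. -/
def jet (w : (Fin d → ℝ) → ℝ) (x : Fin d → ℝ) : J d := (x, w x, grad w x, hessMat w x)

/-- The derivative of the jet along the axis `k`. -/
def dir (j : J d) (T : Ten d) (k : Fin d) : J d :=
  (Pi.single k 1, j.2.2.1 k, fun i => j.2.2.2 i k, fun i l => T i l k)

/-- The derivative of the jet along the normal, on the free boundary. -/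
def normalDir (j : J d) (q : Fin d → ℝ) (H : ℝ) : J d :=
  (j.2.2.1, 1, fun i => -H * j.2.2.1 i, fun i l =>
    -(∑ k, j.2.2.2 i k * j.2.2.2 k l) - H * j.2.2.2 i l
      + dot2 j.2.2.2 j.2.2.2 * j.2.2.1 i * j.2.2.1 l + j.2.2.1 i * q l + q i * j.2.2.1 l)

/-- The Laplacian of a function of the jet. -/
def jetLap (Ψ : J d → ℝ) (j : J d) (T : Ten d) : ℝ :=
  ∑ k, fderiv ℝ (fderiv ℝ Ψ) j (dir j T k) (dir j T k)

/-- The constraints on a jet up to the free boundary. -/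
structure Adm (j : J d) : Prop where
  ne : j.1 ≠ 0
  symm : ∀ i k, j.2.2.2 i k = j.2.2.2 k i
  trace : ∑ i, j.2.2.2 i i = 0
  radial : ∀ i, app j.2.2.2 j.1 i = 0
  euler : dot j.1 j.2.2.1 = j.2.1
  nonneg : 0 ≤ j.2.1
  le_one : dot j.2.2.1 j.2.2.1 ≤ 1

/-- The constraints on the third derivatives over a jet. -/
structure Ext (j : J d) (T : Ten d) : Prop where
  symm₁ : ∀ i k l, T i k l = T k i l
  symm₂ : ∀ i k l, T i k l = T i l k
  trace : ∀ l, ∑ i, T i i l = 0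
  radial : ∀ i k, ∑ l, T i k l * j.1 l = -j.2.2.2 i k

/-- The constraints on a jet at the free boundary, with its mean curvature `H` and free vector `q`. -/
structure Bdry (j : J d) (q : Fin d → ℝ) (H : ℝ) : Prop where
  adm : Adm j
  zero : j.2.1 = 0
  unit : dot j.2.2.1 j.2.2.1 = 1
  eigen : ∀ i, app j.2.2.2 j.2.2.1 i = -H * j.2.2.1 i
  mean : 0 ≤ H
  q_normal : dot q j.2.2.1 = 0
  q_radial : dot q j.1 = H

/-- The dilation of a jet. -/
def dilate (r : ℝ) (j : J d) : J d := (r • j.1, r * j.2.1, j.2.2.1, r⁻¹ • j.2.2.2)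

/-- A family of functions of the jet that are, in the limit `δ → 0`, subsolutions with the boundary
condition. -/
structure JetFamily (Ψ : ℝ → J d → ℝ) (Ψ0 : J d → ℝ) (γ : ℝ) : Prop where
  smooth : ∀ δ, 0 < δ → ∃ U, IsOpen U ∧ {j | Adm j} ⊆ U ∧ ContDiffOn ℝ ∞ (Ψ δ) U
  cont : ContinuousOn Ψ0 {j : J d | Adm j}
  interior : ∀ K : Set (J d × Ten d), IsCompact K → (∀ p ∈ K, Adm p.1) → ∀ e : ℝ, 0 < e →
    ∀ᶠ δ in 𝓝[>] (0 : ℝ), ∀ p ∈ K, 0 < p.1.2.1 → Ext p.1 p.2 →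
      Ψ δ p.1 ^ 2 ≤ Ψ0 p.1 ^ 2 + e ∧
      γ * (Ψ0 p.1 ^ 2 * (dot p.1.1 p.1.1)⁻¹) ≤ Ψ δ p.1 * jetLap (Ψ δ) p.1 p.2 + e
  boundary : ∀ K : Set (J d × (Fin d → ℝ) × ℝ), IsCompact K → (∀ p ∈ K, Bdry p.1 p.2.1 p.2.2) →
    ∀ e : ℝ, 0 < e → ∀ᶠ δ in 𝓝[>] (0 : ℝ), ∀ p ∈ K,
      -e ≤ Ψ δ p.1 * (fderiv ℝ (Ψ δ) p.1 (normalDir p.1 p.2.1 p.2.2) + p.2.2 * Ψ δ p.1)

end

end Vale.Agent.P098.Jet
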