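import Vale.Agent.P098.Jet.Basic

/-!
# P098: the normal derivative of the Hessian on the free boundary
-/

namespace Vale.Agent.P098.Jet

open Vale.Agent.P098.Cone
open Set Filter Topology Finset
open scoped ContDiff

noncomputable section

variable {d : ℕ} {u w : (Fin d → ℝ) → ℝ} {O : Set (Fin d → ℝ)} {y : Fin d → ℝ}

/-- A symmetric matrix whose form vanishes on a hyperplane. -/
theorem eq_normal_part {N : Fin d → ℝ} (hN : dot N N = 1) {R : Fin d → Fin d → ℝ}
    (hR : ∀ i j, R i j = R j i) (h0 : ∀ v, dot v N = 0 → dot (app R v) v = 0) (i j : Fin d) :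
    R i j = N i * app R N j + app R N i * N j - dot (app R N) N * N i * N j := by
  set v : Fin d → Fin d → ℝ := fun a b => (if b = a then 1 else 0) - N a * N b
  have hv : ∀ a, dot (v a) N = 0 := fun a => by
    simp only [v, dot, sub_mul, sum_sub_distrib, ite_mul, one_mul, zero_mul, sum_ite_eq', Finset.mem_univ,
      if_true, mul_assoc, ← mul_sum]
    rw [show ∑ b, N b * N b = 1 from hN]
    ring
  have hB : ∀ p q : Fin d → ℝ, dot (app R p) q = dot (app R q) p := fun p q => by
    rw [dot_app hR, dot_comm]
  have hadd : ∀ p q : Fin d → ℝ, dot (app R fun b => p b + q b) (fun b => p b + q b)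
      = dot (app R p) p + dot (app R p) q + dot (app R q) p + dot (app R q) q := fun p q => by
    simp only [dot, app, mul_add, sum_add_distrib, add_mul]
    ring
  have hpol : dot (app R (v i)) (v j) = 0 := by
    have h1 := h0 (fun b => v i b + v j b) (by
      have : dot (fun b => v i b + v j b) N = dot (v i) N + dot (v j) N := by
        simp only [dot, add_mul, sum_add_distrib]
      rw [this, hv, hv, add_zero])
    rw [hadd, h0 _ (hv i), h0 _ (hv j), hB (v j)] at h1
    linarith
  have e1 : ∀ b, app R (v i) b = R b i - N i * app R N b := fun b => by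
    simp only [app, v, mul_sub, sum_sub_distrib, mul_ite, mul_one, mul_zero, sum_ite_eq', Finset.mem_univ,
      if_true, mul_sum]
    congr 1
    exact sum_congr rfl fun _ _ => by ring
  have e2 : ∀ p : Fin d → ℝ, dot p (v j) = p j - N j * dot p N := fun p => by
    simp only [dot, v, mul_sub, sum_sub_distrib, mul_ite, mul_one, mul_zero, sum_ite_eq', Finset.mem_univ,
      if_true, mul_sum]
    congr 1
    exact sum_congr rfl fun _ _ => by ring
  have e3 : dot (fun b => R b i - N i * app R N b) N = app R N i - N i * dot (app R N) N := by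
    simp only [dot, sub_mul, sum_sub_distrib, mul_sum, mul_assoc]
    congr 1
    exact sum_congr rfl fun b _ => by rw [hR b i]
  rw [show app R (v i) = _ from funext e1, e2, e3, hR j i] at hpol
  linarith

/-- The free part of the normal derivative of the Hessian. -/
def qvec (w : (Fin d → ℝ) → ℝ) (y : Fin d → ℝ) (l : Fin d) : ℝ :=
  (∑ i, ∑ k, third w y i l k * grad w y i * grad w y k)
    - dot2 (hessMat w y) (hessMat w y) * grad w y l

/-- The normal derivative of the Hessian on the free boundary. -/
theorem third_normal (h : RegularCone u O w) (h0 : (0 : Fin d → ℝ) ∉ O)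
    (hy : y ∈ frontier {z | 0 < u z}) (hyO : y ∈ O) :
    dot (qvec w y) (grad w y) = 0 ∧ dot (qvec w y) y = meanCurv w y ∧
    ∀ i l, (∑ k, third w y i l k * grad w y k)
      = (normalDir (jet w y) (qvec w y) (meanCurv w y)).2.2.2 i l := by
  set N := grad w y
  set A := hessMat w y
  set H := meanCurv w y
  have hy0 : y ≠ 0 := fun e => h0 (e ▸ hyO)
  have hN : dot N N = 1 := (sum_congr rfl fun i _ => (sq (pd w i y)).symm).trans (h.free y hy hy0)
  have hA : ∀ i j, A i j = A j i := hess_comm_of h.smooth h.isOpen hyO
  have hH : dot (app A N) N = -H := by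
    simp only [H, meanCurv, neg_neg, dot, app, sum_mul]
    exact sum_congr rfl fun i _ => sum_congr rfl fun j _ => by simp only [A, N, hessMat, grad]; ring
  set g : (Fin d → ℝ) → ℝ := fun z => (∑ i, pd w i z * pd w i z) - 1
  set k : (Fin d → ℝ) → ℝ := fun z => g z - 2 * -H * w z
  have hgs : ContDiffOn ℝ 3 g O := (ContDiffOn.sum fun i _ =>
    (contDiffOn_pd h.smooth h.isOpen i).mul (contDiffOn_pd h.smooth h.isOpen i)).sub contDiffOn_const
  have hks : ContDiffOn ℝ 3 k O :=
    hgs.sub (contDiffOn_const.mul (h.smooth.of_le (by norm_num)))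
  have hw2 : ContDiffOn ℝ 2 w O := h.smooth.of_le (by norm_num)
  have hk2 : ContDiffOn ℝ 2 k O := hks.of_le (by norm_num)
  have hw0 : w y = 0 := by
    rw [h.w_eq (RegularCone.mem_closure_of_frontier hy) hyO, h.u_eq_zero_of_frontier hy]
  have hz : ∀ᶠ z in 𝓝 y, w z = 0 → k z = 0 := by
    filter_upwards [h.zero_near h0 hy hyO, h.isOpen.mem_nhds hyO] with z hz hzO hwz
    have hz0 : z ≠ 0 := fun e => h0 (e ▸ hzO)
    have := h.free z (hz hwz) hz0
    simp only [sq] at this
    simp only [k, g, this, hwz]
    ring
  have hn1 : fderiv ℝ w y N = 1 := by rw [fderiv_eq_sum]; exact hN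
  have hvN : ∀ v, dot v N = 0 → fderiv ℝ w y v = 0 := fun v hv => by rw [fderiv_eq_sum]; exact hv
  have hd : ∀ i z, z ∈ O → DifferentiableAt ℝ (pd w i) z := fun i z hz' =>
    differentiableAt_of_smooth (contDiffOn_pd h.smooth h.isOpen i) h.isOpen hz'
  have hwd : ∀ z, z ∈ O → DifferentiableAt ℝ w z := fun z hz' =>
    differentiableAt_of_smooth h.smooth h.isOpen hz'
  have hpk : ∀ z, z ∈ O → ∀ j, pd k j z
      = 2 * (∑ i, pd w i z * hess w i j z) - 2 * -H * pd w j z := by
    intro z hz' j
    have hdg : DifferentiableAt ℝ g z := differentiableAt_of_smooth hgs h.isOpen hz'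
    simp only [k]
    rw [pd_sub hdg ((differentiableAt_const _).fun_mul (hwd z hz')),
      pd_mul (differentiableAt_const _) (hwd z hz'), pd_const]
    have hds : DifferentiableAt ℝ (fun y => ∑ i, pd w i y * pd w i y) z :=
      DifferentiableAt.fun_sum fun i _ => (hd i z hz').mul (hd i z hz')
    simp only [g]
    rw [pd_sub hds (differentiableAt_const _), pd_const,
      pd_sum _ (F := fun i y => pd w i y * pd w i y) (fun i _ => (hd i z hz').mul (hd i z hz'))]
    simp only [pd_mul (hd _ z hz') (hd _ z hz'), ← two_mul, mul_sum, mul_zero, add_zero, sub_zero]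
    rfl
  have hpky : ∀ j, pd k j y = 2 * (app A N j - -H * N j) := fun j => by
    rw [hpk y hyO j]
    simp only [mul_sub, app, mul_sum, A, N, hessMat, grad, ← mul_assoc]
    congr 1
    exact sum_congr rfl fun i _ => by rw [hess_comm_of h.smooth h.isOpen hyO i j]; ring
  -- the first order
  set e : Fin d → ℝ := fun j => app A N j - -H * N j
  have heN : dot e N = 0 := by
    calc dot e N = ∑ j, (app A N j * N j + H * (N j * N j)) := sum_congr rfl fun _ _ => by
          simp only [e]; ring
      _ = 0 := by
          rw [sum_add_distrib, ← mul_sum, show ∑ j, N j * N j = 1 from hN,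
            show ∑ j, app A N j * N j = dot (app A N) N from rfl, hH]
          ring
  have h1 := (tangential h.isOpen hw2 hk2 hyO hw0 hz hn1 (hvN e heN)).1
  have hee : dot e e = 0 := by
    rw [fderiv_eq_sum] at h1
    simp only [hpky] at h1
    rw [show ∑ i, e i * (2 * (app A N i - -H * N i)) = 2 * dot e e by
      rw [dot, mul_sum]; exact sum_congr rfl fun i _ => by simp only [e]; ring] at h1
    linarith
  have hAN : ∀ i, app A N i = -H * N i := fun i => by
    have := mul_self_eq_zero.1 ((sum_eq_zero_iff_of_nonneg fun j _ => mul_self_nonneg (e j)).1 hee i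
      (Finset.mem_univ i))
    simp only [e] at this
    linarith
  have hk0 : fderiv ℝ k y = 0 := ContinuousLinearMap.ext fun v => by
    rw [fderiv_eq_sum]
    simp [hpky, hAN]
  -- the second order
  set R : Fin d → Fin d → ℝ := fun j l =>
    (∑ i, (third w y i j l * N i + A i j * A i l)) - -H * A j l
  have hRsym : ∀ j l, R j l = R l j := fun j l => by
    simp only [R, third_comm₂ h.smooth h.isOpen hyO _ j l, hA j l, mul_comm (A _ j)]
  have hhess : ∀ j l, hess k j l y = 2 * R j l := by
    intro j l
    have hev : (fun z => pd k j z)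
        =ᶠ[𝓝 y] fun z => 2 * (∑ i, pd w i z * hess w i j z) - 2 * -H * pd w j z := by
      filter_upwards [h.isOpen.mem_nhds hyO] with z hz' using hpk z hz' j
    have hdh : ∀ i, DifferentiableAt ℝ (hess w i j) y := fun i =>
      differentiableAt_of_smooth (contDiffOn_hess h.smooth h.isOpen i j) h.isOpen hyO
    have hs : DifferentiableAt ℝ (fun z => ∑ i, pd w i z * hess w i j z) y :=
      DifferentiableAt.fun_sum fun i _ => (hd i y hyO).mul (hdh i)
    rw [hess, pd_congr hev, pd_sub ((differentiableAt_const _).fun_mul hs) ((differentiableAt_const _).fun_mul (hd j y hyO)),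
      pd_mul (differentiableAt_const _) hs, pd_mul (differentiableAt_const _) (hd j y hyO), pd_const,
      pd_sum _ (F := fun i z => pd w i z * hess w i j z) (fun i _ => (hd i y hyO).mul (hdh i))]
    simp only [pd_mul (hd _ y hyO) (hdh _), pd_const, mul_zero, add_zero, R, mul_sub, mul_sum, ← mul_assoc]
    congr 1
    exact sum_congr rfl fun i _ => by simp only [third, A, N, hessMat, grad, hess]; ring
  have hRzero : ∀ v, dot v N = 0 → dot (app R v) v = 0 := by
    intro v hv
    have h2 := (tangential h.isOpen hw2 hk2 hyO hw0 hz hn1 (hvN v hv)).2 hk0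
    have e1 : (fun z => fderiv ℝ k z v) = fun z => ∑ i, v i * pd k i z :=
      funext fun z => fderiv_eq_sum k z v
    rw [e1, fderiv_eq_sum] at h2
    have e2 : ∀ l, pd (fun z => ∑ i, v i * pd k i z) l y = 2 * app R v l := by
      intro l
      have hdk : ∀ i, DifferentiableAt ℝ (pd k i) y := fun i =>
        differentiableAt_of_smooth (contDiffOn_pd hks h.isOpen i) h.isOpen hyO
      rw [pd_sum _ (F := fun i z => v i * pd k i z) (fun i _ => (differentiableAt_const _).mul (hdk i))]
      simp only [pd_mul (differentiableAt_const _) (hdk _), pd_const, mul_zero, add_zero, app, mul_sum]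
      exact sum_congr rfl fun i _ => by
        rw [show pd (pd k i) l y = hess k i l y from rfl, hhess i l, hRsym i l]; ring
    simp only [e2] at h2
    rw [show ∑ i, v i * (2 * app R v i) = 2 * dot (app R v) v by
      rw [dot, mul_sum]; exact sum_congr rfl fun i _ => by ring] at h2
    linarith
  have hnp := eq_normal_part hN hRsym hRzero
  have hcl := RegularCone.mem_closure_of_frontier hy
  have hRN : ∀ l, app R N l = ∑ i, ∑ k, third w y i l k * N i * N k := by
    intro l
    have eA : ∑ k, ∑ i, A i l * A i k * N k = -H * app A N l := by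
      rw [sum_comm]
      calc ∑ i, ∑ k, A i l * A i k * N k = ∑ i, A i l * app A N i := by
            simp only [app, mul_sum, mul_assoc]
        _ = -H * ∑ i, A i l * N i := by
            rw [mul_sum]; exact sum_congr rfl fun i _ => by rw [hAN i]; ring
        _ = _ := by simp only [app]; congr 1; exact sum_congr rfl fun i _ => by rw [hA i l]
    have : app R N l = (∑ i, ∑ k, third w y i l k * N i * N k)
        + (∑ k, ∑ i, A i l * A i k * N k) + H * app A N l := by
      simp only [R, app, sub_mul, add_mul, sum_add_distrib, sum_sub_distrib, sum_mul, mul_sum, neg_mul,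
        sum_neg_distrib, sub_neg_eq_add, mul_assoc]
      congr 2
      rw [sum_comm]
    rw [this, eA]
    ring
  set ρ := dot (app R N) N
  have htr : ρ = dot2 A A := by
    have e1 : ∑ j, R j j = ρ := by
      have : ∀ j, R j j = 2 * (app R N j * N j) - ρ * (N j * N j) := fun j => by rw [hnp j j]; ring
      simp only [this, sum_sub_distrib, ← mul_sum]
      rw [show ∑ j, N j * N j = 1 from hN, show ∑ j, app R N j * N j = ρ from rfl]
      ring
    have e2 : ∑ j, ∑ i, third w y i j j * N i = 0 := by
      rw [sum_comm]
      refine sum_eq_zero fun i _ => ?_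
      rw [← sum_mul, show ∑ j, third w y i j j = ∑ j, third w y j j i from sum_congr rfl fun j _ => by
        rw [third_comm₁ h.smooth h.isOpen hyO i j j, third_comm₂ h.smooth h.isOpen hyO j i j],
        h.third_trace hcl hyO i, zero_mul]
    have e3 : ∑ j, A j j = 0 := h.trace hcl hyO
    rw [← e1]
    simp only [R, sum_sub_distrib, sum_add_distrib, e2, ← mul_sum, e3, zero_add, mul_zero, sub_zero, dot2]
    rw [sum_comm]
  have hq : ∀ l, qvec w y l = app R N l - ρ * N l := fun l => by rw [hRN, htr]; rfl
  have h3 : ∀ i l, ∑ k, third w y i l k * y k = -A i l := fun i l => by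
    have := h.eq_zero_of_pos (g := fun z => (∑ k, third w z i l k * z k) + hess w i l z)
      ((continuousOn_finsetSum _ fun k _ => (contDiffOn_third h.smooth h.isOpen i l k).continuousOn.mul
        (continuous_apply k).continuousOn).add (contDiffOn_hess h.smooth h.isOpen i l).continuousOn)
      (fun z hz => by rw [h.third_radial_pos hz]; ring) hcl hyO
    simp only [A, hessMat]
    linarith
  refine ⟨?_, ?_, fun i l => ?_⟩
  · calc dot (qvec w y) N = ∑ l, (app R N l * N l - ρ * (N l * N l)) :=
          sum_congr rfl fun l _ => by rw [hq]; ring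
      _ = 0 := by
          rw [sum_sub_distrib, ← mul_sum, show ∑ l, N l * N l = 1 from hN,
            show ∑ l, app R N l * N l = ρ from rfl]
          ring
  · have hxN : dot N y = 0 := by
      rw [dot_comm, h.euler hcl hyO, hw0]
    calc dot (qvec w y) y = ∑ l, app R N l * y l - ρ * dot N y := by
          simp only [dot, mul_sum, ← sum_sub_distrib]
          exact sum_congr rfl fun l _ => by rw [hq]; ring
      _ = ∑ i, ∑ k, N i * N k * ∑ l, third w y i k l * y l := by
          rw [hxN, mul_zero, sub_zero]
          simp only [hRN, sum_mul, mul_sum]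
          rw [sum_comm]
          refine sum_congr rfl fun i _ => ?_
          rw [sum_comm]
          exact sum_congr rfl fun k _ => sum_congr rfl fun l _ => by
            rw [third_comm₂ h.smooth h.isOpen hyO i k l]; ring
      _ = -dot (app A N) N := by
          simp only [h3, dot, app, sum_mul, ← sum_neg_distrib]
          exact sum_congr rfl fun i _ => sum_congr rfl fun k _ => by ring
      _ = H := by rw [hH, neg_neg]
  · have e1 : ∑ k, third w y i l k * N k = ∑ k, third w y k i l * N k := sum_congr rfl fun k _ => by
      rw [third_comm₂ h.smooth h.isOpen hyO i l k, third_comm₁ h.smooth h.isOpen hyO i k l]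
    have e2 : ∑ k, A i k * A k l = ∑ k, A k i * A k l := sum_congr rfl fun k _ => by rw [hA i k]
    have e4 : R i l = (∑ k, third w y k i l * N k) + (∑ k, A k i * A k l) + H * A i l := by
      simp only [R, sum_add_distrib]; ring
    show ∑ k, third w y i l k * N k = -(∑ k, A i k * A k l) - H * A i l + dot2 A A * N i * N l
      + N i * qvec w y l + qvec w y i * N l
    rw [e1, e2, hq, hq, ← htr]
    linear_combination hnp i l - e4

end

end Vale.Agent.P098.Jet
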