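import Vale.Agent.P098.Jet.Boundary

/-!
# P098: derivatives of functions of the jet
-/

namespace Vale.Agent.P098.Jet

open Vale.Agent.P098.Cone
open Set Filter Topology Finset
open scoped ContDiff

noncomputable section

variable {d : ℕ} {u w : (Fin d → ℝ) → ℝ} {O : Set (Fin d → ℝ)} {z : Fin d → ℝ}

theorem contDiffOn_jet (h : RegularCone u O w) : ContDiffOn ℝ 2 (jet w) O :=
  contDiffOn_id.prodMk ((h.smooth.of_le (by norm_num)).prodMk
    ((contDiffOn_pi.2 fun i => (contDiffOn_pd h.smooth h.isOpen i).of_le (by norm_num)).prodMk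
    (contDiffOn_pi.2 fun i => contDiffOn_pi.2 fun k => contDiffOn_hess h.smooth h.isOpen i k)))

theorem continuousOn_third (h : RegularCone u O w) : ContinuousOn (third w) O :=
  continuousOn_pi.2 fun i => continuousOn_pi.2 fun k => continuousOn_pi.2 fun l =>
    (contDiffOn_third h.smooth h.isOpen i k l).continuousOn

theorem differentiableAt_jet (h : RegularCone u O w) (hz : z ∈ O) : DifferentiableAt ℝ (jet w) z :=
  ((contDiffOn_jet h).differentiableOn (by simp)).differentiableAt (h.isOpen.mem_nhds hz)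

/-- The components of the derivative of a map into the space of jets. -/
theorem fderiv_comps {f : (Fin d → ℝ) → J d} (hf : DifferentiableAt ℝ f z) (v : Fin d → ℝ) :
    fderiv ℝ f z v = (fun i => fderiv ℝ (fun y => (f y).1 i) z v,
      fderiv ℝ (fun y => (f y).2.1) z v,
      fun i => fderiv ℝ (fun y => (f y).2.2.1 i) z v,
      fun i l => fderiv ℝ (fun y => (f y).2.2.2 i l) z v) := by
  have h1 := hf.hasFDerivAt
  refine Prod.ext (funext fun i => ?_) (Prod.ext ?_ (Prod.ext (funext fun i => ?_)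
    (funext fun i => funext fun l => ?_)))
  · show _ = fderiv ℝ (fun y => (f y).1 i) z v
    have h2 : HasFDerivAt (fun y => (f y).1 i) _ z :=
      (ContinuousLinearMap.proj (R := ℝ) (φ := fun _ : Fin d => ℝ) i).hasFDerivAt.comp z h1.fst
    rw [h2.fderiv]; rfl
  · show _ = fderiv ℝ (fun y => (f y).2.1) z v
    have h2 : HasFDerivAt (fun y => (f y).2.1) _ z := h1.snd.fst
    rw [h2.fderiv]; rfl
  · show _ = fderiv ℝ (fun y => (f y).2.2.1 i) z v
    have h2 : HasFDerivAt (fun y => (f y).2.2.1 i) _ z :=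
      (ContinuousLinearMap.proj (R := ℝ) (φ := fun _ : Fin d => ℝ) i).hasFDerivAt.comp z h1.snd.snd.fst
    rw [h2.fderiv]; rfl
  · show _ = fderiv ℝ (fun y => (f y).2.2.2 i l) z v
    have h2 : HasFDerivAt (fun y => (f y).2.2.2 i l) _ z :=
      (ContinuousLinearMap.proj (R := ℝ) (φ := fun _ : Fin d => ℝ) l).hasFDerivAt.comp z
        ((ContinuousLinearMap.proj (R := ℝ) (φ := fun _ : Fin d => Fin d → ℝ) i).hasFDerivAt.comp z
          h1.snd.snd.snd)
    rw [h2.fderiv]; rfl

theorem fderiv_jet (h : RegularCone u O w) (hz : z ∈ O) (k : Fin d) :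
    fderiv ℝ (jet w) z (Pi.single k 1) = dir (jet w z) (third w z) k := by
  rw [fderiv_comps (differentiableAt_jet h hz)]
  refine Prod.ext (funext fun i => ?_) (Prod.ext rfl (Prod.ext rfl rfl))
  show pd (fun y => y i) k z = (Pi.single k (1 : ℝ) : Fin d → ℝ) i
  rw [pd_coord, Pi.single_apply]
  simp only [eq_comm (a := k)]

variable {Ψ : J d → ℝ} {U : Set (J d)}

theorem pd_comp_jet (h : RegularCone u O w) (hU : IsOpen U) (hΨ : ContDiffOn ℝ ∞ Ψ U) (hz : z ∈ O)
    (hzU : jet w z ∈ U) (k : Fin d) :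
    pd (fun y => Ψ (jet w y)) k z = fderiv ℝ Ψ (jet w z) (dir (jet w z) (third w z) k) := by
  have h1 : DifferentiableAt ℝ Ψ (jet w z) :=
    (hΨ.differentiableOn (by simp)).differentiableAt (hU.mem_nhds hzU)
  have h2 : HasFDerivAt (fun y => Ψ (jet w y)) _ z :=
    h1.hasFDerivAt.comp z (differentiableAt_jet h hz).hasFDerivAt
  rw [pd, h2.fderiv, ContinuousLinearMap.comp_apply, fderiv_jet h hz]

/-- The jet is harmonic, so only the second derivative of `Ψ` enters the Laplacian. -/
theorem lap_comp_jet (h : RegularCone u O w) (hU : IsOpen U) (hΨ : ContDiffOn ℝ ∞ Ψ U) (hz : 0 < u z)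
    (hzU : jet w z ∈ U) :
    lap (fun y => Ψ (jet w y)) z = jetLap Ψ (jet w z) (third w z) := by
  have hzO := h.mem_of_pos hz
  have hV : O ∩ jet w ⁻¹' U ∈ 𝓝 z :=
    ((contDiffOn_jet h).continuousOn.isOpen_inter_preimage h.isOpen hU).mem_nhds ⟨hzO, hzU⟩
  set g : Fin d → (Fin d → ℝ) → J d := fun k y => dir (jet w y) (third w y) k
  have hg : ∀ k, DifferentiableAt ℝ (g k) z := fun k =>
    DifferentiableAt.prodMk (differentiableAt_const _) (DifferentiableAt.prodMk
      (differentiableAt_of_smooth (contDiffOn_pd h.smooth h.isOpen k) h.isOpen hzO)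
      (DifferentiableAt.prodMk
        (differentiableAt_pi.2 fun i =>
          differentiableAt_of_smooth (contDiffOn_hess h.smooth h.isOpen i k) h.isOpen hzO)
        (differentiableAt_pi.2 fun i => differentiableAt_pi.2 fun l =>
          differentiableAt_of_smooth (contDiffOn_third h.smooth h.isOpen i l k) h.isOpen hzO)))
  have hD : DifferentiableAt ℝ (fun y => fderiv ℝ Ψ (jet w y)) z :=
    DifferentiableAt.comp z (((hΨ.fderiv_of_isOpen hU le_rfl).differentiableOn
      (by simp : (∞ : WithTop ℕ∞) ≠ 0)).differentiableAt (hU.mem_nhds hzU)) (differentiableAt_jet h hzO)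
  have hDD : HasFDerivAt (fun y => fderiv ℝ Ψ (jet w y))
      ((fderiv ℝ (fderiv ℝ Ψ) (jet w z)).comp (fderiv ℝ (jet w) z)) z :=
    (((hΨ.fderiv_of_isOpen hU le_rfl).differentiableOn (by simp : (∞ : WithTop ℕ∞) ≠ 0)).differentiableAt
      (hU.mem_nhds hzU)).hasFDerivAt.comp z (differentiableAt_jet h hzO).hasFDerivAt
  have e : ∀ k, hess (fun y => Ψ (jet w y)) k k z
      = fderiv ℝ Ψ (jet w z) (fderiv ℝ (g k) z (Pi.single k 1))
        + fderiv ℝ (fderiv ℝ Ψ) (jet w z) (g k z) (g k z) := by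
    intro k
    have ev : (fun y => pd (fun y => Ψ (jet w y)) k y) =ᶠ[𝓝 z] fun y => fderiv ℝ Ψ (jet w y) (g k y) := by
      filter_upwards [hV] with y hy using pd_comp_jet h hU hΨ hy.1 hy.2 k
    rw [hess, pd_congr ev, pd, fderiv_clm_apply hD (hg k), hDD.fderiv]
    simp only [ContinuousLinearMap.add_apply, ContinuousLinearMap.comp_apply,
      ContinuousLinearMap.flip_apply, fderiv_jet h hzO]
    rfl
  have e0 : ∑ k, fderiv ℝ (g k) z (Pi.single k 1) = 0 := by
    simp only [fderiv_comps (hg _)]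
    refine Prod.ext ?_ (Prod.ext ?_ (Prod.ext ?_ ?_))
    · funext i
      simp only [Prod.fst_sum, Finset.sum_apply, g, dir, Prod.fst_zero, Pi.zero_apply]
      simp
    · simp only [Prod.fst_sum, Prod.snd_sum, Prod.fst_zero, Prod.snd_zero, g, dir, jet]
      exact h.trace_pos hz
    · funext i
      simp only [Prod.fst_sum, Prod.snd_sum, Finset.sum_apply, Prod.fst_zero, Prod.snd_zero,
        Pi.zero_apply, g, dir, jet, hessMat]
      show ∑ k, third w z i k k = 0
      rw [← h.third_trace_pos hz i]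
      exact sum_congr rfl fun k _ => by
        rw [third_comm₁ h.smooth h.isOpen hzO i k k, third_comm₂ h.smooth h.isOpen hzO k i k]
    · funext i l
      simp only [Prod.snd_sum, Finset.sum_apply, Prod.snd_zero, Pi.zero_apply, g, dir]
      exact h.laplace_hess hz i l
  simp only [lap, e, sum_add_distrib, ← map_sum, e0, map_zero, zero_add, jetLap, g]

theorem normal_sum (h : RegularCone u O w) (h0 : (0 : Fin d → ℝ) ∉ O) {y : Fin d → ℝ}
    (hy : y ∈ frontier {z | 0 < u z}) (hyO : y ∈ O) :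
    ∑ k, grad w y k • dir (jet w y) (third w y) k
      = normalDir (jet w y) (qvec w y) (meanCurv w y) := by
  obtain ⟨hN, hAN, -⟩ := h.free_boundary h0 hy hyO
  obtain ⟨-, -, hT⟩ := third_normal h h0 hy hyO
  refine Prod.ext (funext fun i => ?_) (Prod.ext ?_ (Prod.ext (funext fun i => ?_)
    (funext fun i => funext fun l => ?_)))
  · simp only [Prod.fst_sum, Finset.sum_apply, Prod.smul_fst, Pi.smul_apply, smul_eq_mul, dir, normalDir,
      jet, Pi.single_apply, mul_ite, mul_one, mul_zero, Finset.sum_ite_eq, Finset.mem_univ, if_true]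
  · simp only [Prod.fst_sum, Prod.snd_sum, Prod.smul_fst, Prod.smul_snd, smul_eq_mul, dir, normalDir, jet]
    exact hN
  · simp only [Prod.fst_sum, Prod.snd_sum, Finset.sum_apply, Prod.smul_fst, Prod.smul_snd, Pi.smul_apply,
      smul_eq_mul, dir, normalDir, jet]
    rw [← hAN i]
    exact sum_congr rfl fun k _ => mul_comm _ _
  · rw [← hT i l]
    simp only [Prod.snd_sum, Finset.sum_apply, Prod.smul_snd, Pi.smul_apply, smul_eq_mul, dir]
    exact sum_congr rfl fun k _ => mul_comm _ _

/-- The normal derivative on the free boundary. -/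
theorem normal_comp_jet (h : RegularCone u O w) (h0 : (0 : Fin d → ℝ) ∉ O) (hU : IsOpen U)
    (hΨ : ContDiffOn ℝ ∞ Ψ U) {y : Fin d → ℝ} (hy : y ∈ frontier {z | 0 < u z}) (hyO : y ∈ O)
    (hyU : jet w y ∈ U) :
    dot (grad (fun x => Ψ (jet w x)) y) (grad w y)
      = fderiv ℝ Ψ (jet w y) (normalDir (jet w y) (qvec w y) (meanCurv w y)) := by
  rw [← normal_sum h h0 hy hyO, map_sum]
  refine sum_congr rfl fun k _ => ?_
  rw [map_smul, smul_eq_mul, ← pd_comp_jet h hU hΨ hyO hyU k, mul_comm]
  rfl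

end

end Vale.Agent.P098.Jet
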