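import Vale.Agent.P098.Jet.Gradient

/-!
# P098: flatness from a family of jet subsolutions

A family of functions of the jet that satisfies the pointwise inequalities of `JetFamily` with a constant
above the Hardy constant vanishes on every minimising regular cone. If it vanishes only for vanishing
Hessian, the cone is a half-space solution.
-/

namespace Vale.Agent.P098.Jet

open Vale.Agent.P098.Cone
open MeasureTheory Set Filter Topology Finset
open scoped ContDiff

noncomputable section

variable {d : ℕ} {u w : (Fin d → ℝ) → ℝ} {O : Set (Fin d → ℝ)} {γ s : ℝ}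
  {Ψ : ℝ → J d → ℝ} {Ψ0 : J d → ℝ}

/-- The jets of a regular cone are admissible. -/
theorem adm_jet (h : RegularCone u O w) (h0 : (0 : Fin d → ℝ) ∉ O) (hd : 2 ≤ d) {x : Fin d → ℝ}
    (hx : x ∈ closure {y | 0 < u y}) (hxO : x ∈ O) : Adm (jet w x) where
  ne := fun e => h0 (by simp only [jet] at e; exact e ▸ hxO)
  symm := hess_comm_of h.smooth h.isOpen hxO
  trace := h.trace hx hxO
  radial := h.app_hess_radial hx hxO
  euler := h.euler hx hxO
  nonneg := by
    show 0 ≤ w x
    rw [h.w_eq hx hxO]; exact h.nonneg x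
  le_one := grad_sq_le_one h h0 hd hx hxO

/-- The third derivatives extend the jet. -/
theorem ext_jet (h : RegularCone u O w) {x : Fin d → ℝ} (hx : 0 < u x) : Ext (jet w x) (third w x) where
  symm₁ := third_comm₁ h.smooth h.isOpen (h.mem_of_pos hx)
  symm₂ := third_comm₂ h.smooth h.isOpen (h.mem_of_pos hx)
  trace := h.third_trace_pos hx
  radial := h.third_radial_pos hx

/-- The jets on the free boundary. -/
theorem bdry_jet (h : RegularCone u O w) (h0 : (0 : Fin d → ℝ) ∉ O) (hd : 2 ≤ d) {x : Fin d → ℝ}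
    (hx : x ∈ frontier {y | 0 < u y}) (hxO : x ∈ O) :
    Bdry (jet w x) (qvec w x) (meanCurv w x) where
  adm := adm_jet h h0 hd (RegularCone.mem_closure_of_frontier hx) hxO
  zero := by
    show w x = 0
    rw [h.w_eq (RegularCone.mem_closure_of_frontier hx) hxO, h.u_eq_zero_of_frontier hx]
  unit := (h.free_boundary h0 hx hxO).1
  eigen := (h.free_boundary h0 hx hxO).2.1
  mean := meanCurv_nonneg h h0 hd hx hxO
  q_normal := (third_normal h h0 hx hxO).1
  q_radial := (third_normal h h0 hx hxO).2.1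

theorem continuousOn_bdryData (h : RegularCone u O w) :
    ContinuousOn (fun x => (jet w x, qvec w x, meanCurv w x)) O := by
  have hp : ∀ i, ContinuousOn (pd w i) O := fun i => (contDiffOn_pd h.smooth h.isOpen i).continuousOn
  have hh : ∀ i k, ContinuousOn (hess w i k) O := fun i k =>
    (contDiffOn_hess h.smooth h.isOpen i k).continuousOn
  refine (contDiffOn_jet h).continuousOn.prodMk ((continuousOn_pi.2 fun l => ?_).prodMk ?_)
  · exact (continuousOn_finsetSum _ fun i _ => continuousOn_finsetSum _ fun k _ =>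
      ((contDiffOn_third h.smooth h.isOpen i l k).continuousOn.mul (hp i)).mul (hp k)).sub
      ((continuousOn_finsetSum _ fun i _ => continuousOn_finsetSum _ fun k _ =>
        (hh i k).mul (hh i k)).mul (hp l))
  · exact (continuousOn_finsetSum _ fun i _ => continuousOn_finsetSum _ fun k _ =>
      ((hh i k).mul (hp i)).mul (hp k)).neg

/-- A family of jet subsolutions gives a test family on every regular cone. -/
theorem testFamily_of_jetFamily (h : RegularCone u O w) (h0 : (0 : Fin d → ℝ) ∉ O) (hd : 2 ≤ d)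
    (hF : JetFamily Ψ Ψ0 γ) :
    TestFamily u w O (fun δ x => Ψ δ (jet w x)) (fun x => Ψ0 (jet w x)) γ := by
  have hcl : MapsTo (jet w) (clPos u) {j : J d | Adm j} := fun x hx =>
    adm_jet h h0 hd hx.1 (h.cover x hx.1 hx.2)
  have hclO : clPos u ⊆ O := fun x hx => h.cover x hx.1 hx.2
  refine ⟨fun δ hδ => ?_, hF.cont.comp ((contDiffOn_jet h).continuousOn.mono hclO) hcl,
    fun K hK hKO e he => ?_⟩
  · obtain ⟨U, hU, hAU, hΨ⟩ := hF.smooth δ hδ
    exact ⟨O ∩ jet w ⁻¹' U, (contDiffOn_jet h).continuousOn.isOpen_inter_preimage h.isOpen hU,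
      fun x hx => ⟨hclO hx, hAU (hcl hx)⟩,
      (hΨ.of_le (WithTop.coe_le_coe.2 le_top)).comp ((contDiffOn_jet h).mono inter_subset_left) fun x hx => hx.2⟩
  · have hKc : IsCompact (K ∩ closure {y | 0 < u y}) := hK.inter_right isClosed_closure
    have hKf : IsCompact (K ∩ frontier {y | 0 < u y}) := hK.inter_right isClosed_frontier
    have h1 := hF.interior ((fun x => (jet w x, third w x)) '' (K ∩ closure {y | 0 < u y}))
      (hKc.image_of_continuousOn
        (((contDiffOn_jet h).continuousOn.prodMk (continuousOn_third h)).mono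
          (inter_subset_left.trans hKO)))
      (forall_mem_image.2 fun x hx => adm_jet h h0 hd hx.2 (hKO hx.1)) e he
    have h2 := hF.boundary
      ((fun x => (jet w x, qvec w x, meanCurv w x)) '' (K ∩ frontier {y | 0 < u y}))
      (hKf.image_of_continuousOn ((continuousOn_bdryData h).mono (inter_subset_left.trans hKO)))
      (forall_mem_image.2 fun x hx => bdry_jet h h0 hd hx.2 (hKO hx.1)) e he
    filter_upwards [h1, h2, self_mem_nhdsWithin] with δ hi hb (hδ : 0 < δ)
    obtain ⟨U, hU, hAU, hΨ⟩ := hF.smooth δ hδ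
    refine ⟨fun x hxK hx => ?_, fun x hx => ?_⟩
    · have hA : Adm (jet w x) := adm_jet h h0 hd (subset_closure hx) (hKO hxK)
      have hpos : 0 < (jet w x).2.1 := by
        show 0 < w x
        rw [h.agree x (hKO hxK) hx]; exact hx
      have := hi _ (mem_image_of_mem _ ⟨hxK, subset_closure hx⟩) hpos (ext_jet h hx)
      rw [lap_comp_jet h hU hΨ hx (hAU hA)]
      exact this
    · have hB := bdry_jet h h0 hd hx.2 (hKO hx.1)
      rw [normal_comp_jet h h0 hU hΨ hx.2 (hKO hx.1) (hAU hB.adm)]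
      exact hb _ (mem_image_of_mem _ hx)

/-- The jet transforms by dilation. -/
theorem jet_smul (h : RegularCone u O w) {z : Fin d → ℝ} (hz : 0 < u z) {r : ℝ} (hr : 0 < r) :
    jet w (r • z) = dilate r (jet w z) := by
  obtain ⟨h1, h2⟩ := grad_smul h hz hr
  refine Prod.ext rfl (Prod.ext h1 (Prod.ext h2 (funext fun i => funext fun k => ?_)))
  exact h.hess_smul hz hr i k

/-- A homogeneous family of jet subsolutions above the Hardy constant vanishes on a minimiser. -/
theorem jet_vanish (h : RegularCone u O w) (hP : ∀ y ∈ O, 0 < dot (grad w y) (grad w y))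
    (h0 : (0 : Fin d → ℝ) ∉ O) (hmin : IsMinimizer u) (hd : 2 ≤ d) (hF : JetFamily Ψ Ψ0 γ)
    (hhom : ∀ (r : ℝ) (j : J d), 0 < r → Adm j → 0 < j.2.1 →
      Ψ0 (dilate r j) ^ 2 = r ^ (2 * s) * Ψ0 j ^ 2)
    (hγs : (((d : ℝ) - 2) / 2 + s) ^ 2 < γ) {z : Fin d → ℝ} (hz : 0 < u z) : Ψ0 (jet w z) = 0 :=
  vanish h hP h0 hmin (testFamily_of_jetFamily h h0 hd hF) (fun r x hr hx => by
    simp only [jet_smul h hx hr]
    exact hhom r _ hr (adm_jet h h0 hd (subset_closure hx) (h.mem_of_pos hx))
      (by show 0 < w x; rw [h.agree x (h.mem_of_pos hx) hx]; exact hx)) hγs hz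

/-- Flatness from a family of jet subsolutions that vanishes only with the Hessian. -/
theorem flat_of_jetFamily (h : RegularCone u O w) (hmin : IsMinimizer u) (hne : u ≠ 0) (hd : 2 ≤ d)
    (hF : JetFamily Ψ Ψ0 γ)
    (hhom : ∀ (r : ℝ) (j : J d), 0 < r → Adm j → 0 < j.2.1 →
      Ψ0 (dilate r j) ^ 2 = r ^ (2 * s) * Ψ0 j ^ 2)
    (hγs : (((d : ℝ) - 2) / 2 + s) ^ 2 < γ)
    (hzero : ∀ j : J d, Adm j → 0 < j.2.1 → Ψ0 j = 0 → j.2.2.2 = 0) :
    ∃ e : Fin d → ℝ, ∑ i, e i ^ 2 = 1 ∧ ∀ x, u x = max (∑ i, e i * x i) 0 := by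
  have hs := h.shrink
  refine hs.flat_of_hess hd (fun z hz i k => ?_) hne
  have hA := adm_jet hs (fun h0 => h0.2.2 rfl) hd (subset_closure hz) (hs.mem_of_pos hz)
  have h1 := hzero _ hA (by show 0 < w z; rw [hs.agree z (hs.mem_of_pos hz) hz]; exact hz)
    (jet_vanish hs (fun _ hy => hy.2.1) (fun h0 => h0.2.2 rfl) hmin hd hF hhom hγs hz)
  exact congr_fun (congr_fun h1 i) k

end

end Vale.Agent.P098.Jet
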