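import Vale.Agent.P098.Jet.Main

/-!
# P098: powers of a nonnegative function of the jet

For `Ψ δ = (F + δ) ^ μ` the conditions of `JetFamily` reduce to exact conditions on `F`.
-/

namespace Vale.Agent.P098.Jet

open Vale.Agent.P098.Cone
open Set Filter Topology Finset
open scoped ContDiff

noncomputable section

variable {d : ℕ}

/-- First and second directional derivatives of a smooth function from its restriction to a line. -/
theorem fderiv_line {E : Type*} [NormedAddCommGroup E] [NormedSpace ℝ E] {F : E → ℝ} {U : Set E}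
    (hU : IsOpen U) (hF : ContDiffOn ℝ ∞ F U) {j V : E} (hj : j ∈ U) {g1 : ℝ → ℝ} {a : ℝ}
    (h1 : ∀ᶠ t in 𝓝 (0 : ℝ), HasDerivAt (fun t => F (j + t • V)) (g1 t) t) (h2 : HasDerivAt g1 a 0) :
    fderiv ℝ F j V = g1 0 ∧ fderiv ℝ (fderiv ℝ F) j V V = a := by
  have hl : Continuous fun t : ℝ => j + t • V := by fun_prop
  have hl0 : Tendsto (fun t : ℝ => j + t • V) (𝓝 0) (𝓝 j) := by simpa using hl.tendsto 0
  have hline : ∀ t : ℝ, HasDerivAt (fun s : ℝ => j + s • V) V t := fun t => by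
    simpa using ((hasDerivAt_id t).smul_const V).const_add j
  have hd : ∀ᶠ t in 𝓝 (0 : ℝ), fderiv ℝ F (j + t • V) V = g1 t := by
    filter_upwards [hl0.eventually (hU.mem_nhds hj), h1] with t ht ht1
    exact (((hF.differentiableOn (by simp)).differentiableAt
      (hU.mem_nhds ht)).hasFDerivAt.comp_hasDerivAt t (hline t)).unique ht1
  refine ⟨by simpa using hd.self_of_nhds, ?_⟩
  have hD : DifferentiableAt ℝ (fderiv ℝ F) j :=
    ((hF.fderiv_of_isOpen hU le_rfl).differentiableOn (by simp : (∞ : WithTop ℕ∞) ≠ 0)).differentiableAt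
      (hU.mem_nhds hj)
  have h3 : HasDerivAt (fun t : ℝ => fderiv ℝ F (j + t • V)) (fderiv ℝ (fderiv ℝ F) j V) 0 :=
    HasFDerivAt.comp_hasDerivAt_of_eq (0 : ℝ) hD.hasFDerivAt (hline 0) (by simp)
  have h4 : HasDerivAt (fun t : ℝ => fderiv ℝ F (j + t • V) V) (fderiv ℝ (fderiv ℝ F) j V V) 0 := by
    simpa using h3.clm_apply (hasDerivAt_const (0 : ℝ) V)
  exact (h4.congr_of_eventuallyEq (hd.mono fun t ht => ht.symm)).unique h2

/-- The regularised power. -/
def powFam (F : J d → ℝ) (μ δ : ℝ) (j : J d) : ℝ := (F j + δ) ^ μ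

variable {F : J d → ℝ} {U : Set (J d)} {μ γ δ : ℝ}

theorem powFam_derivs (hU : IsOpen U) (hF : ContDiffOn ℝ ∞ F U) {j : J d} (hj : j ∈ U)
    (hpos : 0 < F j + δ) (v : J d) :
    fderiv ℝ (powFam F μ δ) j v = μ * (F j + δ) ^ (μ - 1) * fderiv ℝ F j v ∧
    fderiv ℝ (fderiv ℝ (powFam F μ δ)) j v v
      = μ * (μ - 1) * (F j + δ) ^ (μ - 2) * fderiv ℝ F j v ^ 2
        + μ * (F j + δ) ^ (μ - 1) * fderiv ℝ (fderiv ℝ F) j v v := by
  have hfd : ∀ y ∈ U, DifferentiableAt ℝ F y := fun y hy =>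
    (hF.differentiableOn (by simp)).differentiableAt (hU.mem_nhds hy)
  have h1 : ∀ y ∈ U, 0 < F y + δ →
      fderiv ℝ (powFam F μ δ) y = (μ * (F y + δ) ^ (μ - 1)) • fderiv ℝ F y := fun y hy hy' =>
    (((hfd y hy).hasFDerivAt.add_const δ).rpow_const (.inl hy'.ne')).fderiv
  have ev : fderiv ℝ (powFam F μ δ) =ᶠ[𝓝 j] fun y => (μ * (F y + δ) ^ (μ - 1)) • fderiv ℝ F y := by
    filter_upwards [hU.mem_nhds hj,
      ((hfd j hj).continuousAt.add continuousAt_const).eventually (lt_mem_nhds hpos)] with y hy hy'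
    exact h1 y hy hy'
  have hD : DifferentiableAt ℝ (fderiv ℝ F) j :=
    ((hF.fderiv_of_isOpen hU le_rfl).differentiableOn (by simp : (∞ : WithTop ℕ∞) ≠ 0)).differentiableAt
      (hU.mem_nhds hj)
  have h2 := ((((hfd j hj).hasFDerivAt.add_const δ).rpow_const (p := μ - 1) (.inl hpos.ne')).const_mul
    μ).fun_smul hD.hasFDerivAt
  refine ⟨by rw [h1 j hj hpos]; simp, ?_⟩
  rw [ev.fderiv_eq, h2.fderiv, show μ - 1 - 1 = μ - 2 by ring]
  simp only [ContinuousLinearMap.add_apply, ContinuousLinearMap.smul_apply,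
    ContinuousLinearMap.smulRight_apply, smul_eq_mul]
  ring

/-- The loss in regularising a power. -/
theorem rpow_reg_le {t : ℝ} (ht : 0 ≤ t) (hδ : 0 < δ) (hμ : 0 < μ) :
    t ^ (2 * μ) ≤ t ^ 2 * (t + δ) ^ (2 * μ - 2)
      + 2 * (δ ^ min (2 * μ) 1 * (t + δ) ^ (2 * μ - min (2 * μ) 1)) := by
  set X := t + δ
  set ν := min (2 * μ) 1
  have hX : 0 < X := by positivity
  have h1 : t ^ (2 * μ) ≤ X ^ (2 * μ) := Real.rpow_le_rpow ht (by simp only [X]; linarith) (by linarith)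
  have h2 : X ^ (2 * μ) = X ^ (2 * μ - 2) * X ^ 2 := by
    rw [← Real.rpow_natCast X 2, ← Real.rpow_add hX]; norm_num
  have h3 : X ^ (2 * μ - 2) * (X ^ 2 - t ^ 2) ≤ 2 * (δ * X ^ (2 * μ - 1)) := by
    have : X ^ (2 * μ - 1) = X ^ (2 * μ - 2) * X := by
      rw [← Real.rpow_add_one hX.ne']; congr 1; ring
    rw [this, show X ^ 2 - t ^ 2 = δ * (X + t) by simp only [X]; ring]
    have : δ * (X + t) ≤ δ * (2 * X) := mul_le_mul_of_nonneg_left (by simp only [X]; linarith) hδ.le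
    have := mul_le_mul_of_nonneg_left this (Real.rpow_nonneg hX.le (2 * μ - 2))
    linarith
  have h4 : δ * X ^ (2 * μ - 1) ≤ δ ^ ν * X ^ (2 * μ - ν) := by
    have e1 : δ ^ ν * δ ^ (1 - ν) = δ := by rw [← Real.rpow_add hδ]; norm_num
    have e2 : X ^ (2 * μ - 1) * X ^ (1 - ν) = X ^ (2 * μ - ν) := by
      rw [← Real.rpow_add hX]; congr 1; ring
    calc δ * X ^ (2 * μ - 1) = δ ^ ν * (X ^ (2 * μ - 1) * δ ^ (1 - ν)) := by
          nth_rewrite 1 [← e1]; ring
      _ ≤ δ ^ ν * (X ^ (2 * μ - 1) * X ^ (1 - ν)) := by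
          gcongr
          · exact sub_nonneg.2 (min_le_right _ _)
          · simp only [X]; linarith
      _ = _ := by rw [e2]
  rw [h2] at h1
  rw [mul_sub] at h3
  linarith

/-- Exact conditions on `F` under which the powers `(F + δ) ^ μ` form a family of jet subsolutions. -/
theorem jetFamily_pow (hU : IsOpen U) (hAU : {j : J d | Adm j} ⊆ U) (hF : ContDiffOn ℝ ∞ F U)
    (hF0 : ∀ j, Adm j → 0 ≤ F j) (hμ : 0 < μ) (hμ1 : μ ≤ 1) (hγ : 0 ≤ γ)
    (hI : ∀ j T, Adm j → 0 < j.2.1 → Ext j T →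
      γ * (F j ^ 2 * (dot j.1 j.1)⁻¹)
        ≤ μ * (F j * jetLap F j T + (μ - 1) * ∑ k, fderiv ℝ F j (dir j T k) ^ 2))
    (hI0 : ∀ j T, Adm j → 0 < j.2.1 → Ext j T → F j = 0 → 0 ≤ jetLap F j T)
    (hB : ∀ j q H, Bdry j q H → 0 ≤ μ * fderiv ℝ F j (normalDir j q H) + H * F j) :
    JetFamily (powFam F μ) (fun j => F j ^ μ) γ := by
  have hFc : ContinuousOn F {j : J d | Adm j} := hF.continuousOn.mono hAU
  refine ⟨fun δ hδ => ?_, hFc.rpow_const fun j _ => .inr hμ.le, fun K hK hKA e he => ?_,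
    fun K _ hKB e he => ?_⟩
  · refine ⟨U ∩ (fun j => F j + δ) ⁻¹' Ioi 0,
      (hF.continuousOn.add continuousOn_const).isOpen_inter_preimage hU isOpen_Ioi,
      fun j hj => ⟨hAU hj, show 0 < F j + δ by linarith [hF0 j hj]⟩, ?_⟩
    exact ((hF.mono inter_subset_left).add contDiffOn_const).rpow_const_of_ne fun j hj =>
      (show 0 < F j + δ from hj.2).ne'
  · obtain ⟨M, hM⟩ := hK.exists_bound_of_continuousOn
      (hFc.comp continuous_fst.continuousOn fun p hp => hKA p hp)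
    have hRc : ContinuousOn (fun p : J d × Ten d => (dot p.1.1 p.1.1)⁻¹) K :=
      (contDiff_dot_self.continuous.comp (continuous_fst.comp continuous_fst)).continuousOn.inv₀
        fun p hp => (dot_self_pos (hKA p hp).ne).ne'
    obtain ⟨B, hB'⟩ := hK.exists_bound_of_continuousOn hRc
    set ν := min (2 * μ) 1
    have hν : 0 < ν := lt_min (by linarith) one_pos
    set M' := max M 0
    have c1 : ∀ᶠ δ in 𝓝 (0 : ℝ), ∀ t ∈ Icc (0 : ℝ) M', (t + δ) ^ (2 * μ) < t ^ (2 * μ) + e := by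
      refine isCompact_Icc.eventually_forall_of_forall_eventually fun t _ => ?_
      have hc : Continuous fun p : ℝ × ℝ => (p.2 + p.1) ^ (2 * μ) - p.2 ^ (2 * μ) :=
        ((Real.continuous_rpow_const (by linarith)).comp (continuous_snd.add continuous_fst)).sub
          ((Real.continuous_rpow_const (by linarith)).comp continuous_snd)
      filter_upwards [(hc.tendsto (0, t)).eventually (gt_mem_nhds (show
        (t + 0) ^ (2 * μ) - t ^ (2 * μ) < e by rw [add_zero, sub_self]; exact he))] with p hp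
      linarith
    have c2 : ∀ᶠ δ in 𝓝 (0 : ℝ),
        γ * max B 0 * (2 * (δ ^ ν * (M' + δ) ^ (2 * μ - ν))) < e := by
      have hc : Continuous fun δ : ℝ => γ * max B 0 * (2 * (δ ^ ν * (M' + δ) ^ (2 * μ - ν))) :=
        continuous_const.mul (continuous_const.mul ((Real.continuous_rpow_const hν.le).mul
          ((Real.continuous_rpow_const (sub_nonneg.2 (min_le_left _ _))).comp
            (continuous_const.add continuous_id))))
      exact (hc.tendsto 0).eventually (gt_mem_nhds (by simp [Real.zero_rpow hν.ne', he]))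
    filter_upwards [c1.filter_mono nhdsWithin_le_nhds, c2.filter_mono nhdsWithin_le_nhds,
      self_mem_nhdsWithin] with δ hd1 hd2 (hδ : 0 < δ) p hp hv hT
    obtain ⟨j, T⟩ := p
    have hA : Adm j := hKA (j, T) hp
    have ht : 0 ≤ F j := hF0 j hA
    have htM : F j ≤ M' := ((le_abs_self _).trans (hM _ hp)).trans (le_max_left _ _)
    set X := F j + δ with hX'
    have hX : 0 < X := by positivity
    have hd' : ∀ k, fderiv ℝ (fderiv ℝ (powFam F μ δ)) j (dir j T k) (dir j T k)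
        = μ * (μ - 1) * X ^ (μ - 2) * fderiv ℝ F j (dir j T k) ^ 2
          + μ * X ^ (μ - 1) * fderiv ℝ (fderiv ℝ F) j (dir j T k) (dir j T k) := fun k =>
      (powFam_derivs hU hF (hAU hA) hX _).2
    refine ⟨?_, ?_⟩
    · have h1 := hd1 _ ⟨ht, htM⟩
      simp only [powFam]
      rw [← Real.rpow_natCast ((F j + δ) ^ μ) 2, ← Real.rpow_natCast (F j ^ μ) 2,
        ← Real.rpow_mul hX.le, ← Real.rpow_mul ht]
      push_cast
      rw [mul_comm μ 2]
      exact h1.le
    · set L := jetLap F j T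
      set G := ∑ k, fderiv ℝ F j (dir j T k) ^ 2
      have hL : 0 ≤ L := by
        rcases ht.eq_or_lt with h0 | h0
        · exact hI0 j T hA hv hT h0.symm
        · have h1 := hI j T hA hv hT
          have h2 : 0 ≤ γ * (F j ^ 2 * (dot j.1 j.1)⁻¹) :=
            mul_nonneg hγ (mul_nonneg (sq_nonneg _) (inv_nonneg.2 (dot_self_nonneg _)))
          have h3 : 0 ≤ F j * L + (μ - 1) * G := (mul_nonneg_iff_of_pos_left hμ).1 (h2.trans h1)
          have h4 : (μ - 1) * G ≤ 0 :=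
            mul_nonpos_of_nonpos_of_nonneg (by linarith) (sum_nonneg fun k _ => sq_nonneg _)
          exact (mul_nonneg_iff_of_pos_left h0).1 (by linarith)
      have e1 : X ^ μ * X ^ (μ - 2) = X ^ (2 * μ - 2) := by
        rw [← Real.rpow_add hX]; congr 1; ring
      have e2 : X ^ μ * X ^ (μ - 1) = X ^ (2 * μ - 2) * X := by
        rw [← Real.rpow_add hX, ← Real.rpow_add_one hX.ne']; congr 1; ring
      have eΨ : powFam F μ δ j * jetLap (powFam F μ δ) j T
          = X ^ (2 * μ - 2) * (μ * (F j * L + (μ - 1) * G)) + μ * X ^ (2 * μ - 2) * δ * L := by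
        simp only [powFam, jetLap, hd', sum_add_distrib, ← mul_sum, L, G]
        rw [← hX']
        linear_combination (μ * (μ - 1) * (∑ i, fderiv ℝ F j (dir j T i) ^ 2)) * e1
          + (μ * (∑ i, fderiv ℝ (fderiv ℝ F) j (dir j T i) (dir j T i))) * e2
          + (μ * X ^ (2 * μ - 2) * (∑ i, fderiv ℝ (fderiv ℝ F) j (dir j T i) (dir j T i))) * hX'
      have hXn : 0 ≤ X ^ (2 * μ - 2) := Real.rpow_nonneg hX.le _
      have h1 := mul_le_mul_of_nonneg_left (hI j T hA hv hT) hXn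
      have h2 : 0 ≤ μ * X ^ (2 * μ - 2) * δ * L :=
        mul_nonneg (mul_nonneg (mul_nonneg hμ.le hXn) hδ.le) hL
      have hRn : 0 ≤ (dot j.1 j.1)⁻¹ := inv_nonneg.2 (dot_self_nonneg _)
      have h3 := mul_le_mul_of_nonneg_left
        (mul_le_mul_of_nonneg_right (rpow_reg_le ht hδ hμ) hRn) hγ
      have hR : (dot j.1 j.1)⁻¹ ≤ max B 0 :=
        ((le_abs_self _).trans (hB' _ hp)).trans (le_max_left _ _)
      have h4 : γ * (2 * (δ ^ ν * X ^ (2 * μ - ν)) * (dot j.1 j.1)⁻¹) ≤ e := by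
        refine le_trans ?_ hd2.le
        rw [mul_assoc γ, mul_comm (max B 0)]
        refine mul_le_mul_of_nonneg_left (mul_le_mul ?_ hR hRn ?_) hγ
        · refine mul_le_mul_of_nonneg_left (mul_le_mul_of_nonneg_left
            (Real.rpow_le_rpow hX.le (by linarith) (sub_nonneg.2 (min_le_left _ _)))
            (Real.rpow_nonneg hδ.le _)) two_pos.le
        · exact mul_nonneg two_pos.le (mul_nonneg (Real.rpow_nonneg hδ.le _)
            (Real.rpow_nonneg (by positivity) _))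
      rw [show (F j ^ μ) ^ 2 = F j ^ (2 * μ) by
        rw [← Real.rpow_natCast (F j ^ μ) 2, ← Real.rpow_mul ht]; push_cast; ring_nf, eΨ]
      simp only [ν] at h4
      linarith
  · filter_upwards [self_mem_nhdsWithin] with δ (hδ : 0 < δ) p hp
    obtain ⟨j, q, H⟩ := p
    have hb := hKB _ hp
    have hX : 0 < F j + δ := by linarith [hF0 j hb.adm]
    simp only [powFam]
    rw [(powFam_derivs hU hF (hAU hb.adm) hX _).1]
    have e2 : (F j + δ) ^ μ = (F j + δ) ^ (μ - 1) * (F j + δ) := by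
      rw [← Real.rpow_add_one hX.ne']; congr 1; ring
    have h1 : 0 ≤ μ * fderiv ℝ F j (normalDir j q H) + H * (F j + δ) := by
      have := hB j q H hb
      have := mul_nonneg hb.mean hδ.le
      linarith
    have h2 : 0 ≤ (F j + δ) ^ μ * ((F j + δ) ^ (μ - 1)
        * (μ * fderiv ℝ F j (normalDir j q H) + H * (F j + δ))) :=
      mul_nonneg (Real.rpow_nonneg hX.le _) (mul_nonneg (Real.rpow_nonneg hX.le _) h1)
    have e3 : μ * (F j + δ) ^ (μ - 1) * fderiv ℝ F j (normalDir j q H) + H * (F j + δ) ^ μ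
        = (F j + δ) ^ (μ - 1) * (μ * fderiv ℝ F j (normalDir j q H) + H * (F j + δ)) := by
      rw [e2]; ring
    rw [e3]
    linarith

/-- Flatness from exact conditions on a nonnegative function of the jet, homogeneous of degree `k`. -/
theorem flat_of_pow {u w : (Fin d → ℝ) → ℝ} {O : Set (Fin d → ℝ)} {k : ℝ} (h : RegularCone u O w)
    (hmin : IsMinimizer u) (hne : u ≠ 0) (hd : 2 ≤ d)
    (hU : IsOpen U) (hAU : {j : J d | Adm j} ⊆ U) (hF : ContDiffOn ℝ ∞ F U)
    (hF0 : ∀ j, Adm j → 0 ≤ F j) (hμ : 0 < μ) (hμ1 : μ ≤ 1)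
    (hI : ∀ j T, Adm j → 0 < j.2.1 → Ext j T →
      γ * (F j ^ 2 * (dot j.1 j.1)⁻¹)
        ≤ μ * (F j * jetLap F j T + (μ - 1) * ∑ i, fderiv ℝ F j (dir j T i) ^ 2))
    (hI0 : ∀ j T, Adm j → 0 < j.2.1 → Ext j T → F j = 0 → 0 ≤ jetLap F j T)
    (hB : ∀ j q H, Bdry j q H → 0 ≤ μ * fderiv ℝ F j (normalDir j q H) + H * F j)
    (hhom : ∀ (r : ℝ) (j : J d), 0 < r → Adm j → F (dilate r j) = r ^ k * F j)
    (hγk : (((d : ℝ) - 2) / 2 + μ * k) ^ 2 < γ)
    (hzero : ∀ j : J d, Adm j → 0 < j.2.1 → F j = 0 → j.2.2.2 = 0) :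
    ∃ e : Fin d → ℝ, ∑ i, e i ^ 2 = 1 ∧ ∀ x, u x = max (∑ i, e i * x i) 0 := by
  refine flat_of_jetFamily h hmin hne hd
    (jetFamily_pow hU hAU hF hF0 hμ hμ1 (le_trans (sq_nonneg _) hγk.le) hI hI0 hB)
    (fun r j hr hj _ => ?_) hγk fun j hj hv h0 => ?_
  · simp only [hhom r j hr hj, Real.mul_rpow (Real.rpow_nonneg hr.le _) (hF0 j hj), mul_pow]
    congr 1
    rw [← Real.rpow_mul hr.le, ← Real.rpow_natCast _ 2, ← Real.rpow_mul hr.le]
    congr 1
    push_cast
    ring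
  · exact hzero j hj hv ((Real.rpow_eq_zero (hF0 j hj) hμ.ne').1 h0)

end

end Vale.Agent.P098.Jet
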