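import Vale.Agent.P098.Cone.Flat

/-!
# P098: families of test functions on a regular cone

A family `c δ`, smooth up to the free boundary, that is in the limit a subsolution with the boundary
condition `c_ν + H c ≥ 0` turns stability into a weighted Hardy inequality for its limit `c0`. If `c0` is
homogeneous and the constant exceeds the Hardy constant, `c0` vanishes.
-/

namespace Vale.Agent.P098.Jet

open Vale.Agent.P098.Cone
open MeasureTheory Set Filter Topology Finset
open scoped ContDiff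

noncomputable section

variable {d : ℕ} {u w : (Fin d → ℝ) → ℝ} {O : Set (Fin d → ℝ)} {γ s σ : ℝ}

/-- The Laplacian. -/
def lap (f : (Fin d → ℝ) → ℝ) (z : Fin d → ℝ) : ℝ := ∑ k, hess f k k z

/-- The closure of the positivity set without the vertex. -/
def clPos (u : (Fin d → ℝ) → ℝ) : Set (Fin d → ℝ) := closure {y | 0 < u y} \ {0}

/-- A family of test functions, subsolutions up to an error that vanishes on compact sets. -/
structure TestFamily (u w : (Fin d → ℝ) → ℝ) (O : Set (Fin d → ℝ))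
    (c : ℝ → (Fin d → ℝ) → ℝ) (c0 : (Fin d → ℝ) → ℝ) (γ : ℝ) : Prop where
  smooth : ∀ δ, 0 < δ → ∃ V, IsOpen V ∧ clPos u ⊆ V ∧ ContDiffOn ℝ 2 (c δ) V
  cont : ContinuousOn c0 (clPos u)
  est : ∀ K : Set (Fin d → ℝ), IsCompact K → K ⊆ O → ∀ e : ℝ, 0 < e → ∀ᶠ δ in 𝓝[>] (0 : ℝ),
    (∀ x ∈ K, 0 < u x → c δ x ^ 2 ≤ c0 x ^ 2 + e ∧
      γ * (c0 x ^ 2 * (dot x x)⁻¹) ≤ c δ x * lap (c δ) x + e) ∧
    (∀ x ∈ K ∩ frontier {y | 0 < u y},
      -e ≤ c δ x * (dot (grad (c δ) x) (grad w x) + meanCurv w x * c δ x))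

theorem sub_clPos (h0 : (0 : Fin d → ℝ) ∉ O) {K : Set (Fin d → ℝ)} (hK : K ⊆ O) :
    K ∩ closure {y | 0 < u y} ⊆ clPos u :=
  fun _ hx => ⟨hx.2, fun e => h0 (by rw [mem_singleton_iff] at e; exact e ▸ hK hx.1)⟩

/-- A continuous compactly supported factor makes a function continuous up to the free boundary
integrable on the positivity set. -/
theorem integrableOn_pos (h : RegularCone u O w) (h0 : (0 : Fin d → ℝ) ∉ O) {K : Set (Fin d → ℝ)}
    (hK : IsCompact K) (hKO : K ⊆ O) {f g : (Fin d → ℝ) → ℝ} (hf : Continuous f)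
    (hf0 : ∀ z ∉ K, f z = 0) (hg : ContinuousOn g (clPos u)) :
    IntegrableOn (fun z => f z * g z) {z | 0 < u z} := by
  have h1 : IntegrableOn (fun z => f z * g z) (K ∩ closure {y | 0 < u y}) :=
    (hf.continuousOn.mul (hg.mono (sub_clPos h0 hKO))).integrableOn_compact
      (hK.inter_right isClosed_closure)
  exact h1.of_forall_sdiff_eq_zero h.isOpen_pos.measurableSet fun z hz => by
    rw [hf0 z fun hh => hz.2 ⟨hh, subset_closure hz.1⟩, zero_mul]

theorem grad_eq_zero_of_notMem {f : (Fin d → ℝ) → ℝ} {z : Fin d → ℝ} (hz : z ∉ tsupport f) :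
    grad f z = 0 :=
  funext fun i => show pd f i z = 0 from
    image_eq_zero_of_notMem_tsupport fun hh => hz (tsupport_pd _ _ hh)

/-- Stability tested with `ζ c`, integrated by parts. -/
theorem test_core (h : RegularCone u O w) (hP : ∀ y ∈ O, 0 < dot (grad w y) (grad w y))
    (h0 : (0 : Fin d → ℝ) ∉ O) (hmin : IsMinimizer u) {c : (Fin d → ℝ) → ℝ} {V : Set (Fin d → ℝ)}
    (hV : IsOpen V) (hVO : V ⊆ O) (hc : ContDiffOn ℝ 2 c V) {K : Set (Fin d → ℝ)} (hKc : IsCompact K)
    {Cf : ℝ} (hflux : ∀ (Z : Fin d → (Fin d → ℝ) → ℝ) (m : ℝ), (∀ i, ContDiff ℝ 1 (Z i)) →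
      (∀ i, tsupport (Z i) ⊆ K) → 0 ≤ m →
      (∀ x ∈ K ∩ frontier {y | 0 < u y}, -m ≤ ∑ i, Z i x * pd w i x) →
      ∫ x in {y | 0 < u y}, divg Z x ≤ Cf * m)
    {ζ : (Fin d → ℝ) → ℝ} (hζ : ContDiff ℝ ∞ ζ) (hζK : tsupport ζ ⊆ K) (hζV : tsupport ζ ⊆ V)
    {m : ℝ} (hm : 0 ≤ m) (hbd : ∀ x ∈ K ∩ frontier {y | 0 < u y}, x ∈ V →
      -m ≤ ζ x * ζ x * (c x * (dot (grad c x) (grad w x) + meanCurv w x * c x))) :
    ∫ z in {z | 0 < u z}, ζ z * ζ z * (c z * lap c z)
      ≤ (∫ z in {z | 0 < u z}, dot (grad ζ z) (grad ζ z) * c z ^ 2) + Cf * m := by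
  have hz0 : ∀ z ∉ K, ζ z = 0 := fun z hz => image_eq_zero_of_notMem_tsupport fun hh => hz (hζK hh)
  have hζs : tsupport (fun z => ζ z * ζ z) ⊆ V := tsupport_mul_subset_left.trans hζV
  have hζc : HasCompactSupport ζ := hKc.of_isClosed_subset (isClosed_tsupport _) hζK
  set φ : (Fin d → ℝ) → ℝ := fun z => ζ z * c z
  have hφ : ContDiff ℝ 1 φ := contDiff_cutoff_mul hζ hV hζV (hc.of_le (by norm_num))
  have hφs : tsupport φ ⊆ tsupport ζ := tsupport_mul_subset_left
  have hst := h.stability hP h0 hmin hφ (hKc.of_isClosed_subset (isClosed_tsupport _) (hφs.trans hζK))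
    ((hφs.trans hζV).trans hVO)
  have ha : ∀ i, ContDiffOn ℝ 2 (aField w i) V := fun i =>
    (contDiffOn_aField h.smooth h.isOpen i).mono hVO
  set W : Fin d → (Fin d → ℝ) → ℝ := fun i z =>
    ζ z * ζ z * (c z * pd c i z - c z * c z * aField w i z)
  have hW : ∀ i, ContDiff ℝ 1 (W i) := fun i =>
    contDiff_cutoff_mul (hζ.mul hζ) hV hζs
      (((hc.of_le (by norm_num)).mul (contDiffOn_pd hc hV i)).sub
        (((hc.mul hc).mul (ha i)).of_le (by norm_num)))
  have hWs : ∀ i, tsupport (W i) ⊆ K := fun i =>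
    tsupport_subset_of_zero hKc.isClosed fun z hz => by simp [W, hz0 z hz]
  have hfl : ∫ z in {z | 0 < u z}, divg W z ≤ Cf * m := by
    refine hflux W m hW hWs hm fun x hx => ?_
    by_cases hxs : x ∈ tsupport ζ
    · have hxO : x ∈ O := hVO (hζV hxs)
      obtain ⟨hN, hAN, -⟩ := h.free_boundary h0 hx.2 hxO
      refine (hbd x hx (hζV hxs)).trans_eq ?_
      have e : ∀ i, W i x * pd w i x = ζ x * ζ x * c x * (grad c x i * grad w x i)
          + ζ x * ζ x * c x * c x * meanCurv w x * (grad w x i * grad w x i) := fun i => by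
        simp only [W]
        rw [show aField w i x = -meanCurv w x * grad w x i from hAN i]
        simp only [grad]
        ring
      simp only [e, sum_add_distrib, ← mul_sum]
      rw [show ∑ i, grad w x i * grad w x i = 1 from hN]
      simp only [dot]
      ring
    · simp [W, image_eq_zero_of_notMem_tsupport hxs, hm]
  -- the pointwise identity
  set I1 : (Fin d → ℝ) → ℝ := fun z => dot (grad ζ z) (grad ζ z) * c z ^ 2
  set I2 : (Fin d → ℝ) → ℝ := fun z => ζ z * ζ z * (c z * lap c z)
  have hlapc : ContinuousOn (lap c) V := continuousOn_finsetSum _ fun k _ =>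
    (contDiffOn_hess hc hV k k).continuousOn
  have hgg : Continuous fun z => dot (grad ζ z) (grad ζ z) :=
    continuous_finsetSum _ fun i _ => (contDiff_pd hζ i).continuous.mul (contDiff_pd hζ i).continuous
  have hggs : tsupport (fun z => dot (grad ζ z) (grad ζ z)) ⊆ tsupport ζ :=
    tsupport_subset_of_zero (isClosed_tsupport ζ) fun z hz => by simp [grad_eq_zero_of_notMem hz, dot]
  have hI2 : Integrable I2 :=
    (continuous_mul_of_tsupport (hζ.continuous.mul hζ.continuous) hV hζs
      (hc.continuousOn.mul hlapc)).integrable_of_hasCompactSupport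
      (HasCompactSupport.intro hKc fun z hz => by simp [hz0 z hz])
  have hI1 : Integrable I1 :=
    (continuous_mul_of_tsupport hgg hV (hggs.trans hζV)
      (hc.continuousOn.pow 2)).integrable_of_hasCompactSupport
      (HasCompactSupport.intro hKc fun z hz => by
        simp [grad_eq_zero_of_notMem (fun hh => hz (hζK hh)), dot])
  have hdW : Integrable (divg W) :=
    (continuous_divg hW).integrable_of_hasCompactSupport (hasCompactSupport_divg hKc hWs)
  have key : ∀ z ∈ {z | 0 < u z}, stabInt w φ z = I1 z - I2 z + divg W z := by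
    intro z hz
    by_cases hzs : z ∈ tsupport ζ
    · have hzV := hζV hzs
      have hζd : DifferentiableAt ℝ ζ z := hζ.differentiable (by simp) z
      have hcd : DifferentiableAt ℝ c z := differentiableAt_of_smooth hc hV hzV
      have hci : ∀ i, DifferentiableAt ℝ (pd c i) z := fun i =>
        differentiableAt_of_smooth (contDiffOn_pd hc hV i) hV hzV
      have had : ∀ i, DifferentiableAt ℝ (aField w i) z := fun i =>
        differentiableAt_of_smooth (ha i) hV hzV
      have e1 : ∀ i, pd φ i z = ζ z * pd c i z + c z * pd ζ i z := fun i => pd_mul hζd hcd i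
      have e2 : ∀ i, pd (W i) i z + pd (fun y => φ y * φ y * aField w i y) i z
          = ζ z * ζ z * (c z * pd (pd c i) i z + pd c i z * pd c i z)
            + c z * pd c i z * (2 * (ζ z * pd ζ i z)) := fun i => by
        have hφd : DifferentiableAt ℝ (fun y => φ y * φ y * aField w i y) z :=
          ((hφ.differentiable (by simp) z).fun_mul (hφ.differentiable (by simp) z)).fun_mul (had i)
        rw [← pd_add ((hW i).differentiable (by simp) z) hφd,
          pd_congr (g := fun y => ζ y * ζ y * (c y * pd c i y)) (.of_forall fun y => by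
            simp only [W, φ]; ring) i,
          pd_mul (hζd.fun_mul hζd) (hcd.fun_mul (hci i)), pd_mul hcd (hci i), pd_mul hζd hζd]
        ring
      have e3 : stabInt w φ z - divg W z = ∑ i, (pd φ i z * pd φ i z
          - (pd (W i) i z + pd (fun y => φ y * φ y * aField w i y) i z)) := by
        simp only [stabInt, divg, dot, grad, sum_sub_distrib, sum_add_distrib]
        ring
      rw [← sub_eq_iff_eq_add, e3]
      simp only [e1, e2, I1, I2, lap, hess, dot, grad, mul_sum, sum_mul, ← sum_sub_distrib]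
      exact sum_congr rfl fun i _ => by ring
    · have hφ0 : φ z = 0 := by simp [φ, image_eq_zero_of_notMem_tsupport hzs]
      have e1 : grad φ z = 0 := grad_eq_zero_of_notMem fun hh => hzs (hφs hh)
      have hs : ∀ (f : (Fin d → ℝ) → ℝ) (i), (∀ y ∉ tsupport ζ, f y = 0) → pd f i z = 0 :=
        fun f i hf => image_eq_zero_of_notMem_tsupport fun hh =>
          hzs (tsupport_subset_of_zero (isClosed_tsupport ζ) hf (tsupport_pd _ _ hh))
      have e2 : divg (fun i y => φ y * φ y * aField w i y) z = 0 := sum_eq_zero fun i _ =>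
        hs _ i fun y hy => by simp [φ, image_eq_zero_of_notMem_tsupport hy]
      have e3 : divg W z = 0 := sum_eq_zero fun i _ =>
        hs _ i fun y hy => by simp [W, image_eq_zero_of_notMem_tsupport hy]
      simp [stabInt, e1, e2, e3, I1, I2, grad_eq_zero_of_notMem hzs,
        image_eq_zero_of_notMem_tsupport hzs, dot]
  have hi12 : IntegrableOn (fun z => I1 z - I2 z) {z | 0 < u z} :=
    hI1.integrableOn.sub hI2.integrableOn
  rw [setIntegral_congr_fun h.isOpen_pos.measurableSet key, integral_add hi12 hdW.integrableOn,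
    integral_sub hI1.integrableOn hI2.integrableOn] at hst
  linarith

/-- The weighted Hardy inequality that stability gives for the limit of a test family. -/
theorem test_ineq {c : ℝ → (Fin d → ℝ) → ℝ} {c0 : (Fin d → ℝ) → ℝ} (h : RegularCone u O w)
    (hP : ∀ y ∈ O, 0 < dot (grad w y) (grad w y)) (h0 : (0 : Fin d → ℝ) ∉ O) (hmin : IsMinimizer u)
    (hF : TestFamily u w O c c0 γ) {η : (Fin d → ℝ) → ℝ}
    (hη : ContDiff ℝ ∞ η) (hηc : HasCompactSupport η) (hη0 : (0 : Fin d → ℝ) ∉ tsupport η) :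
    γ * ∫ z in {z | 0 < u z}, η z * η z * (c0 z ^ 2 * (dot z z)⁻¹)
      ≤ ∫ z in {z | 0 < u z}, dot (grad η z) (grad η z) * c0 z ^ 2 := by
  set K0 := tsupport η ∩ closure {z | 0 < u z}
  have hK0 : IsCompact K0 := (hηc : IsCompact _).inter_right isClosed_closure
  have hK0O : K0 ⊆ O := fun z hz => h.cover z hz.2 fun e => hη0 (e ▸ hz.1)
  obtain ⟨K, hK, hK0K, hKO⟩ := exists_compact_between hK0 h.isOpen hK0O
  have hne : ∀ {z}, z ∈ O → z ≠ 0 := fun hz e => h0 (e ▸ hz)
  obtain ⟨Cf, hCf, hflux⟩ := h.flux_le hP hK hKO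
  have hgg : Continuous fun z => dot (grad η z) (grad η z) :=
    continuous_finsetSum _ fun i _ => (contDiff_pd hη i).continuous.mul (contDiff_pd hη i).continuous
  have hggc : HasCompactSupport fun z => dot (grad η z) (grad η z) :=
    HasCompactSupport.intro hηc fun z hz => by simp [grad_eq_zero_of_notMem hz, dot]
  have hηη : Continuous fun z => η z * η z := hη.continuous.mul hη.continuous
  obtain ⟨B, hB⟩ := hηη.bounded_above_of_compact_support hηc.mul_right
  set Ag := ∫ z in {z | 0 < u z}, dot (grad η z) (grad η z)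
  set Ae := ∫ z in {z | 0 < u z}, η z * η z
  have hAg : 0 ≤ Ag := setIntegral_nonneg h.isOpen_pos.measurableSet fun z _ => dot_self_nonneg _
  have hAe : 0 ≤ Ae := setIntegral_nonneg h.isOpen_pos.measurableSet fun z _ => mul_self_nonneg _
  refine le_of_forall_pos_le_add fun ε hε => ?_
  set T := Ag + Ae + Cf * max B 0 + 1
  have hT : 0 < T := by positivity
  set e := ε / T
  have he : 0 < e := div_pos hε hT
  obtain ⟨δ, ⟨hint, hbd⟩, (hδ : 0 < δ)⟩ :=
    ((hF.est K hK hKO e he).and self_mem_nhdsWithin).exists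
  obtain ⟨V, hV, hclV, hcV⟩ := hF.smooth δ hδ
  obtain ⟨χ, hχ, hχc, hχV, hχ01, hχ1⟩ := exists_cutoff hK0 ((hV.inter h.isOpen).inter isOpen_interior)
    (fun z hz => ⟨⟨hclV (sub_clPos h0 hKO ⟨interior_subset (hK0K hz), hz.2⟩), hK0O hz⟩, hK0K hz⟩)
  set ζ : (Fin d → ℝ) → ℝ := fun z => χ z * η z
  have hζ : ContDiff ℝ ∞ ζ := hχ.mul hη
  have hζχ : tsupport ζ ⊆ tsupport χ := tsupport_mul_subset_left
  have hζK : tsupport ζ ⊆ K := fun z hz => interior_subset (hχV (hζχ hz)).2
  have hζV : tsupport ζ ⊆ V ∩ O := fun z hz => (hχV (hζχ hz)).1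
  have hev : ∀ z, 0 < u z → ζ =ᶠ[𝓝 z] η := fun z hz => by
    by_cases hm : z ∈ tsupport η
    · filter_upwards [eventually_nhdsSet_iff_forall.1 hχ1 z ⟨hm, subset_closure hz⟩] with y hy
      simp [ζ, hy]
    · filter_upwards [(isClosed_tsupport η).isOpen_compl.mem_nhds hm] with y hy
      simp [ζ, image_eq_zero_of_notMem_tsupport hy]
  have hζle : ∀ z, ζ z * ζ z ≤ η z * η z := fun z => by
    simp only [ζ]
    calc χ z * η z * (χ z * η z) = χ z * χ z * (η z * η z) := by ring
      _ ≤ 1 * (η z * η z) := mul_le_mul_of_nonneg_right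
          (mul_le_one₀ (hχ01 z).2 (hχ01 z).1 (hχ01 z).2) (mul_self_nonneg _)
      _ = _ := one_mul _
  have hcore := test_core h hP h0 hmin (hV.inter h.isOpen) inter_subset_right
    (hcV.mono inter_subset_left) hK hflux hζ hζK hζV (m := e * max B 0) (by positivity)
    fun x hx _ => by
      have h1 := hbd x hx
      have h2 : ζ x * ζ x ≤ max B 0 :=
        (hζle x).trans (((le_abs_self _).trans (hB x)).trans (le_max_left _ _))
      refine le_trans ?_ (mul_le_mul_of_nonneg_left h1 (mul_self_nonneg _))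
      rw [mul_neg, neg_le_neg_iff, mul_comm]
      exact mul_le_mul_of_nonneg_left h2 he.le
  -- replace ζ by η and c δ by c0
  set S := {z : Fin d → ℝ | 0 < u z}
  have hS : MeasurableSet S := h.isOpen_pos.measurableSet
  have hζ0 : ∀ z ∉ K, ζ z = 0 := fun z hz => image_eq_zero_of_notMem_tsupport fun hh => hz (hζK hh)
  have hζg0 : ∀ z ∉ K, grad ζ z = 0 := fun z hz => grad_eq_zero_of_notMem fun hh => hz (hζK hh)
  have hggζ : Continuous fun z => dot (grad ζ z) (grad ζ z) :=
    continuous_finsetSum _ fun i _ => (contDiff_pd hζ i).continuous.mul (contDiff_pd hζ i).continuous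
  have hcc0 : ContinuousOn (fun z => c0 z ^ 2) (clPos u) := hF.cont.pow 2
  have hcR : ContinuousOn (fun z => c0 z ^ 2 * (dot z z)⁻¹) (clPos u) :=
    hcc0.mul (contDiff_dot_self.continuous.continuousOn.inv₀ fun z hz => (dot_self_pos hz.2).ne')
  have hclO : clPos u ⊆ V ∩ O := fun z hz => ⟨hclV hz, h.cover z hz.1 hz.2⟩
  have hVO : IsOpen (V ∩ O) := hV.inter h.isOpen
  have hcV' := hcV.mono (inter_subset_left (t := O))
  have hlap : ContinuousOn (lap (c δ)) (clPos u) := (continuousOn_finsetSum _ fun k _ =>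
    (contDiffOn_hess hcV' hVO k k).continuousOn).mono hclO
  have hccl : ContinuousOn (c δ) (clPos u) := hcV'.continuousOn.mono hclO
  have hζη : Continuous fun z => ζ z * ζ z := hζ.continuous.mul hζ.continuous
  have hζη0 : ∀ z ∉ K, ζ z * ζ z = 0 := fun z hz => by simp [hζ0 z hz]
  have hgg0 : ∀ z ∉ K, dot (grad ζ z) (grad ζ z) = 0 := fun z hz => by simp [hζg0 z hz, dot]
  have i2 : IntegrableOn (fun z => ζ z * ζ z * (c0 z ^ 2 * (dot z z)⁻¹)) S :=
    integrableOn_pos h h0 hK hKO hζη hζη0 hcR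
  have i2' : IntegrableOn (fun z => ζ z * ζ z * (c δ z * lap (c δ) z)) S :=
    integrableOn_pos h h0 hK hKO hζη hζη0 (hccl.mul hlap)
  have i1' : IntegrableOn (fun z => dot (grad ζ z) (grad ζ z) * c δ z ^ 2) S :=
    integrableOn_pos h h0 hK hKO hggζ hgg0 (hccl.pow 2)
  have i1 : IntegrableOn (fun z => dot (grad ζ z) (grad ζ z) * c0 z ^ 2) S :=
    integrableOn_pos h h0 hK hKO hggζ hgg0 hcc0
  have ie : IntegrableOn (fun z => ζ z * ζ z) S :=
    (hζη.integrable_of_hasCompactSupport (HasCompactSupport.intro hK hζη0)).integrableOn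
  have ig : IntegrableOn (fun z => dot (grad ζ z) (grad ζ z)) S :=
    (hggζ.integrable_of_hasCompactSupport (HasCompactSupport.intro hK hgg0)).integrableOn
  have hlow : ∫ z in S, γ * (ζ z * ζ z * (c0 z ^ 2 * (dot z z)⁻¹))
      ≤ ∫ z in S, (ζ z * ζ z * (c δ z * lap (c δ) z) + e * (ζ z * ζ z)) := by
    refine setIntegral_mono_on (i2.const_mul γ) (i2'.add (ie.const_mul e)) hS fun z hz => ?_
    by_cases hzK : z ∈ K
    · have := mul_le_mul_of_nonneg_left (hint z hzK hz).2 (mul_self_nonneg (ζ z))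
      linarith
    · simp [hζ0 z hzK]
  have hup : ∫ z in S, dot (grad ζ z) (grad ζ z) * c δ z ^ 2
      ≤ ∫ z in S, (dot (grad ζ z) (grad ζ z) * c0 z ^ 2 + e * dot (grad ζ z) (grad ζ z)) := by
    refine setIntegral_mono_on i1' (i1.add (ig.const_mul e)) hS fun z hz => ?_
    by_cases hzK : z ∈ K
    · have := mul_le_mul_of_nonneg_left (hint z hzK hz).1 (dot_self_nonneg (grad ζ z))
      linarith
    · simp [hgg0 z hzK]
  rw [integral_const_mul, integral_add i2' (ie.const_mul e), integral_const_mul] at hlow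
  rw [integral_add i1 (ig.const_mul e), integral_const_mul] at hup
  have eg : ∀ z ∈ S, grad ζ z = grad η z := fun z hz => funext fun i => pd_congr (hev z hz) i
  have e1 : ∀ z ∈ S, ζ z = η z := fun z hz => (hev z hz).self_of_nhds
  rw [setIntegral_congr_fun hS (fun z hz => by simp only [e1 z hz] :
      EqOn (fun z => ζ z * ζ z * (c0 z ^ 2 * (dot z z)⁻¹)) (fun z => η z * η z * (c0 z ^ 2 * (dot z z)⁻¹)) S),
    setIntegral_congr_fun hS (fun z hz => by simp only [e1 z hz] :
      EqOn (fun z => ζ z * ζ z) (fun z => η z * η z) S)] at hlow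
  rw [setIntegral_congr_fun hS (fun z hz => by simp only [eg z hz] :
      EqOn (fun z => dot (grad ζ z) (grad ζ z) * c0 z ^ 2) (fun z => dot (grad η z) (grad η z) * c0 z ^ 2) S),
    setIntegral_congr_fun hS (fun z hz => by simp only [eg z hz] :
      EqOn (fun z => dot (grad ζ z) (grad ζ z)) (fun z => dot (grad η z) (grad η z)) S)] at hup
  have hfin : e * (Ag + Ae + Cf * max B 0) ≤ ε := by
    calc e * (Ag + Ae + Cf * max B 0) ≤ e * T := mul_le_mul_of_nonneg_left (by simp [T]) he.le
      _ = ε := by simp only [e]; field_simp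
  simp only [Ag, Ae, S] at *
  linarith

/-- The scale invariant density of a test function. -/
def weight (c0 : (Fin d → ℝ) → ℝ) (σ : ℝ) (z : Fin d → ℝ) : ℝ :=
  Real.exp (σ * Real.log (dot z z)) * (dot z z)⁻¹ * c0 z ^ 2

theorem weight_nonneg (c0 : (Fin d → ℝ) → ℝ) (σ : ℝ) (z : Fin d → ℝ) : 0 ≤ weight c0 σ z :=
  mul_nonneg (mul_nonneg (Real.exp_pos _).le (inv_nonneg.2 (dot_self_nonneg z))) (sq_nonneg _)

variable {c0 : (Fin d → ℝ) → ℝ}

theorem continuousOn_weight (hc : ContinuousOn c0 (clPos u)) : ContinuousOn (weight c0 σ) (clPos u) := by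
  have hR : ContinuousOn (fun z : Fin d → ℝ => dot z z) (clPos u) :=
    contDiff_dot_self.continuous.continuousOn
  have hne : ∀ z ∈ clPos u, dot z z ≠ 0 := fun z hz => (dot_self_pos hz.2).ne'
  exact ((Real.continuous_exp.comp_continuousOn (continuousOn_const.mul (hR.log hne))).mul
    (hR.inv₀ hne)).mul (hc.pow 2)

theorem integrableOn_weight (hu : RegularCone u O w) (hc : ContinuousOn c0 (clPos u)) (a b : ℝ) :
    IntegrableOn (weight c0 σ) (shell u a b) := by
  set C := closure {z | 0 < u z} ∩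
    {z : Fin d → ℝ | Real.exp (2 * a) ≤ dot z z ∧ dot z z ≤ Real.exp (2 * b)}
  have hC : IsCompact C := (isCompact_shell _ _).inter_left isClosed_closure
  have hCs : C ⊆ clPos u := fun z hz => ⟨hz.1, fun e => by
    have := hz.2.1
    rw [mem_singleton_iff.1 e] at this
    simp [dot] at this
    linarith [Real.exp_pos (2 * a)]⟩
  refine (((continuousOn_weight hc).mono hCs).integrableOn_compact hC).mono_set fun z ⟨hz, ha, hb⟩ => ?_
  have hR := dot_self_pos (hu.ne_zero_of_pos hz)
  simp only [logRad] at ha hb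
  exact ⟨subset_closure hz, ((Real.le_log_iff_exp_le hR).1 (by linarith)),
    ((Real.log_le_iff_le_exp hR).1 (by linarith))⟩

/-- The mass of a shell is invariant under dilation. -/
theorem shell_shift (h : RegularCone u O w) (hσ : σ = -((d : ℝ) - 2) / 2 - s)
    (hhom : ∀ (r : ℝ) (z : Fin d → ℝ), 0 < r → 0 < u z → c0 (r • z) ^ 2 = r ^ (2 * s) * c0 z ^ 2)
    (a b : ℝ) :
    ∫ z in shell u (a + 1) (b + 1), weight c0 σ z = ∫ z in shell u a b, weight c0 σ z := by
  set e := Real.exp 1
  have he : 0 < e := Real.exp_pos 1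
  rw [← integral_indicator (h.measurableSet_shell _ _), ← integral_indicator (h.measurableSet_shell a b)]
  have key : ∀ z, (shell u (a + 1) (b + 1)).indicator (weight c0 σ) (e • z)
      = e ^ (-(d : ℝ)) * (shell u a b).indicator (weight c0 σ) z := by
    intro z
    have hiff : e • z ∈ shell u (a + 1) (b + 1) ↔ z ∈ shell u a b := by
      show 0 < u (e • z) ∧ _ ∧ _ ↔ 0 < u z ∧ _ ∧ _
      rw [h.homog e z he, mul_pos_iff_of_pos_left he]
      refine and_congr_right fun hz => ?_
      rw [logRad_smul he (h.ne_zero_of_pos hz), show Real.log e = 1 from Real.log_exp 1]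
      constructor <;> intro hh <;> constructor <;> linarith [hh.1, hh.2]
    by_cases hz : z ∈ shell u a b
    · rw [indicator_of_mem (hiff.2 hz), indicator_of_mem hz]
      have hzp : 0 < u z := hz.1
      have hR := dot_self_pos (h.ne_zero_of_pos hzp)
      have eR : dot (e • z) (e • z) = e ^ 2 * dot z z := by
        simp only [dot, Pi.smul_apply, smul_eq_mul, mul_sum]; exact sum_congr rfl fun _ _ => by ring
      simp only [weight, eR, hhom e z he hzp]
      rw [Real.log_mul (pow_ne_zero 2 he.ne') hR.ne']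
      have e1 : e ^ (2 * s) = Real.exp (2 * s) := by simp only [e]; rw [Real.exp_one_rpow]
      have e2 : e ^ (-(d : ℝ)) = Real.exp (-(d : ℝ)) := by simp only [e]; rw [Real.exp_one_rpow]
      have e3 : (e ^ 2 * dot z z)⁻¹ = Real.exp (-2) * (dot z z)⁻¹ := by
        simp only [e]; rw [← Real.exp_nat_mul, mul_inv, ← Real.exp_neg]; norm_num
      have e4 : Real.log (e ^ 2) = 2 := by simp only [e]; rw [Real.log_pow, Real.log_exp]; norm_num
      rw [e1, e2, e3, e4, mul_add, Real.exp_add,
        show Real.exp (-(d : ℝ)) = Real.exp (σ * 2) * Real.exp (-2) * Real.exp (2 * s) by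
          rw [← Real.exp_add, ← Real.exp_add, hσ]; ring_nf]
      ring
    · rw [indicator_of_notMem (fun hh => hz (hiff.1 hh)), indicator_of_notMem hz, mul_zero]
  have hsm := Measure.integral_comp_smul (μ := (volume : Measure (Fin d → ℝ)))
    ((shell u (a + 1) (b + 1)).indicator (weight c0 σ)) e
  simp only [key, integral_const_mul, Module.finrank_fin_fun, smul_eq_mul] at hsm
  rw [Real.rpow_neg he.le, Real.rpow_natCast, abs_of_pos (inv_pos.2 (pow_pos he d))] at hsm
  exact (mul_left_cancel₀ (inv_ne_zero (pow_pos he d).ne') hsm).symm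

/-- A homogeneous function with the weighted Hardy inequality for radial cut-offs, and constant above the
Hardy constant, vanishes. -/
theorem vanish_of_hardy (h : RegularCone u O w) (hcont : ContinuousOn c0 (clPos u))
    (hhardy : ∀ (σ : ℝ) (n : ℕ), 0 < n →
      γ * ∫ z in {z | 0 < u z}, cutoff σ n z * cutoff σ n z * (c0 z ^ 2 * (dot z z)⁻¹)
        ≤ ∫ z in {z | 0 < u z}, dot (grad (cutoff σ n) z) (grad (cutoff σ n) z) * c0 z ^ 2)
    (hhom : ∀ (r : ℝ) (z : Fin d → ℝ), 0 < r → 0 < u z → c0 (r • z) ^ 2 = r ^ (2 * s) * c0 z ^ 2)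
    (hγs : (((d : ℝ) - 2) / 2 + s) ^ 2 < γ) {z : Fin d → ℝ} (hz : 0 < u z) : c0 z = 0 := by
  set σ := -((d : ℝ) - 2) / 2 - s with hσ
  set g := γ - σ ^ 2
  have hg : 0 < g := by
    have : σ ^ 2 = (((d : ℝ) - 2) / 2 + s) ^ 2 := by simp only [σ]; ring
    simp only [g, this]; linarith
  set f := weight c0 σ
  set m : ℤ → ℝ := fun k => ∫ z in shell u k ((k : ℝ) + 1), f z
  have hm : ∀ k, m k = m 0 := by
    have hstep : ∀ k : ℤ, m (k + 1) = m k := fun k => by
      simp only [m, Int.cast_add, Int.cast_one]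
      exact shell_shift h hσ hhom k ((k : ℝ) + 1)
    intro k
    induction k with
    | zero => rfl
    | succ k ih => rw [hstep]; exact ih
    | pred k ih =>
      rw [← ih, ← hstep (-(k : ℤ) - 1), sub_add_cancel]
  have hsum : ∀ (a : ℤ) (k : ℕ), ∫ z in shell u a ((a : ℝ) + k), f z = k * m 0 := by
    intro a k
    induction k with
    | zero =>
      rw [show shell u a ((a : ℝ) + (0 : ℕ)) = ∅ from Set.eq_empty_iff_forall_notMem.2 fun z hz => by
        have h1 := hz.2.1; have h2 := hz.2.2; push_cast at h2; linarith]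
      simp
    | succ k ih =>
      have e : shell u a ((a : ℝ) + (k + 1 : ℕ))
          = shell u a ((a : ℝ) + k) ∪ shell u ((a + k : ℤ) : ℝ) (((a + k : ℤ) : ℝ) + 1) := by
        ext z
        simp only [shell, mem_ofPred_eq, Set.mem_union, ← and_or_left]
        refine and_congr_right fun _ => ⟨fun hh => ?_, fun hh => ?_⟩
        · rcases le_or_gt (logRad z) ((a : ℝ) + k) with h1 | h1
          · exact .inl ⟨hh.1, h1⟩
          · exact .inr ⟨by push_cast; exact h1, by push_cast at hh ⊢; linarith [hh.2]⟩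
        · have hk : (0 : ℝ) ≤ k := Nat.cast_nonneg k
          rcases hh with hh | hh <;> push_cast at hh ⊢ <;> constructor <;> linarith [hh.1, hh.2]
      have hdisj : Disjoint (shell u a ((a : ℝ) + k))
          (shell u ((a + k : ℤ) : ℝ) (((a + k : ℤ) : ℝ) + 1)) := Set.disjoint_left.2 fun z hz hz' => by
        have := hz.2.2; have h' := hz'.2.1; push_cast at h'; linarith
      rw [e, setIntegral_union hdisj (h.measurableSet_shell _ _) (integrableOn_weight h hcont _ _)
        (integrableOn_weight h hcont _ _), ih, show (∫ z in shell u ((a + k : ℤ) : ℝ)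
          (((a + k : ℤ) : ℝ) + 1), f z) = m (a + k) from rfl, hm (a + k)]
      push_cast
      ring
  obtain ⟨M, hM⟩ := ((bump.contDiff (n := 1)).continuous_deriv le_rfl).bounded_above_of_compact_support
    bump.hasCompactSupport.deriv
  set Cb := 2 * |σ| * max M 0 + max M 0 ^ 2
  have hCb : 0 ≤ Cb := by positivity
  have main : ∀ n : ℕ, 0 < n → 2 * n * g * m 0 ≤ 4 * Cb * m 0 := by
    intro n hn
    have hn' : (0 : ℝ) < n := Nat.cast_pos.2 hn
    set η : (Fin d → ℝ) → ℝ := cutoff σ n
    have hineq := hhardy σ n hn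
    set S1 := shell u (-(n : ℝ)) n
    set S2 := shell u (-(2 * n : ℝ)) (2 * n)
    set Ω := {z : Fin d → ℝ | 0 < u z}
    set b : (Fin d → ℝ) → ℝ := fun z => bump (logRad z / n)
    set b' : (Fin d → ℝ) → ℝ := fun z => deriv bump (logRad z / n)
    have hb0 : ∀ z, b z ∈ Icc (0 : ℝ) 1 := fun z => ⟨bump.nonneg, bump.le_one⟩
    have hout : ∀ z ∈ Ω, z ∉ S2 → b z = 0 ∧ b' z = 0 := by
      intro z hz hz'
      have hge : 2 ≤ |logRad z / n| := by
        rw [abs_div, abs_of_pos hn', le_div_iff₀ hn']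
        by_contra hlt
        exact hz' ⟨hz, (abs_lt.1 (not_le.1 hlt)).1, (abs_lt.1 (not_le.1 hlt)).2.le⟩
      refine ⟨bump_zero hge, ?_⟩
      have hmin' : IsLocalMin (fun s => bump s) (logRad z / n) := .of_forall fun s => by
        show bump (logRad z / n) ≤ bump s
        rw [bump_zero hge]; exact bump.nonneg
      exact hmin'.deriv_eq_zero
    have hS2sub : S2 ⊆ Ω := fun z hz => hz.1
    have hS1sub : S1 ⊆ S2 := fun z hz => ⟨hz.1, by linarith [hz.2.1], by linarith [hz.2.2]⟩
    have e1 : ∀ z ∈ Ω, η z * η z * (c0 z ^ 2 * (dot z z)⁻¹) = f z * b z ^ 2 := fun z hz => by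
      rw [(cutoff_sq σ n (h.ne_zero_of_pos hz)).1]
      simp only [f, weight, b]
      ring
    have e2 : ∀ z ∈ Ω, dot (grad η z) (grad η z) * c0 z ^ 2 = f z * (σ * b z + b' z / n) ^ 2 :=
      fun z hz => by
        rw [(cutoff_sq σ n (h.ne_zero_of_pos hz)).2]
        simp only [f, weight, b, b']
        ring
    rw [setIntegral_congr_fun h.isOpen_pos.measurableSet e1,
      setIntegral_congr_fun h.isOpen_pos.measurableSet e2,
      setIntegral_eq_of_subset_of_forall_sdiff_eq_zero h.isOpen_pos.measurableSet hS2sub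
        (fun z hz => by simp [(hout z hz.1 hz.2).1]),
      setIntegral_eq_of_subset_of_forall_sdiff_eq_zero h.isOpen_pos.measurableSet hS2sub
        (fun z hz => by simp [(hout z hz.1 hz.2).1, (hout z hz.1 hz.2).2])] at hineq
    have hfi : IntegrableOn f S2 := integrableOn_weight h hcont _ _
    have hbm : Measurable b := bump.continuous.measurable.comp
      (((Real.measurable_log.comp contDiff_dot_self.continuous.measurable).div_const 2).div_const _)
    have hb'm : Measurable b' := ((bump.contDiff (n := 1)).continuous_deriv le_rfl).measurable.comp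
      (((Real.measurable_log.comp contDiff_dot_self.continuous.measurable).div_const 2).div_const _)
    have hbound : ∀ z, (σ * b z + b' z / n) ^ 2 ≤ σ ^ 2 * b z ^ 2 + Cb / n := fun z => by
      have hM' : |b' z| ≤ max M 0 := (hM _).trans (le_max_left _ _)
      have h1 : |b z| ≤ 1 := by rw [abs_of_nonneg (hb0 z).1]; exact (hb0 z).2
      have h2 : 2 * σ * b z * (b' z / n) ≤ 2 * |σ| * max M 0 / n := by
        refine (le_abs_self _).trans ?_
        rw [abs_mul, abs_mul, abs_mul, abs_two, abs_div, abs_of_pos hn', mul_div_assoc]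
        exact mul_le_mul (mul_le_of_le_one_right (by positivity) h1) (by gcongr) (by positivity)
          (by positivity)
      have h3 : (b' z / n) ^ 2 ≤ max M 0 ^ 2 / n := by
        rw [div_pow, sq (n : ℝ), ← div_div]
        refine (div_le_self (by positivity) (Nat.one_le_cast.2 hn)).trans ?_
        gcongr ?_ / _
        rw [← sq_abs]
        exact pow_le_pow_left₀ (abs_nonneg _) hM' 2
      calc (σ * b z + b' z / n) ^ 2 = σ ^ 2 * b z ^ 2 + 2 * σ * b z * (b' z / n) + (b' z / n) ^ 2 := by ring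
        _ ≤ _ := by rw [show Cb / n = 2 * |σ| * max M 0 / n + max M 0 ^ 2 / n by simp only [Cb]; ring]
                    linarith
    have hi1 : IntegrableOn (fun z => f z * b z ^ 2) S2 :=
      hfi.mul_bdd (c := 1) (hbm.pow_const 2).aestronglyMeasurable (.of_forall fun z => by
        rw [Real.norm_eq_abs, abs_of_nonneg (sq_nonneg _)]
        exact pow_le_one₀ (hb0 z).1 (hb0 z).2)
    have hi2 : IntegrableOn (fun z => f z * (σ * b z + b' z / n) ^ 2) S2 :=
      hfi.mul_bdd (c := σ ^ 2 + Cb / n) (((hbm.const_mul σ).add (hb'm.div_const _)).pow_const 2).aestronglyMeasurable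
        (.of_forall fun z => by
          rw [Real.norm_eq_abs, abs_of_nonneg (sq_nonneg _)]
          exact (hbound z).trans (add_le_add_left (mul_le_of_le_one_right (sq_nonneg σ)
            (pow_le_one₀ (hb0 z).1 (hb0 z).2)) _))
    have hi3 : IntegrableOn (fun z => σ ^ 2 * (f z * b z ^ 2) + Cb / n * f z) S2 :=
      (hi1.const_mul _).add (hfi.const_mul _)
    have hle := hineq.trans (setIntegral_mono_on hi2 hi3 (h.measurableSet_shell _ _) fun z _ =>
      (mul_le_mul_of_nonneg_left (hbound z) (weight_nonneg c0 σ z)).trans_eq (by ring))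
    rw [integral_add (hi1.const_mul _) (hfi.const_mul _), integral_const_mul, integral_const_mul] at hle
    have hlow : ∫ z in S1, f z ≤ ∫ z in S2, f z * b z ^ 2 := by
      rw [show (∫ z in S1, f z) = ∫ z in S1, f z * b z ^ 2 from
        setIntegral_congr_fun (h.measurableSet_shell _ _) fun z hz => by
          have hb : b z = 1 := bump_one (by
            rw [abs_div, abs_of_pos hn', div_le_one hn']
            exact abs_le.2 ⟨hz.2.1.le, hz.2.2⟩)
          rw [hb]; ring]
      exact setIntegral_mono_set hi1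
        (.of_forall fun z => mul_nonneg (weight_nonneg c0 σ z) (sq_nonneg _)) (.of_forall hS1sub)
    have h1 := hsum (-(n : ℤ)) (2 * n)
    have h2 := hsum (-(2 * n : ℤ)) (4 * n)
    push_cast at h1 h2
    rw [show -(n : ℝ) + 2 * n = n by ring] at h1
    rw [show -(2 * n : ℝ) + 4 * n = 2 * n by ring] at h2
    have hS1v : ∫ z in S1, f z = 2 * n * m 0 := by simpa [S1] using h1
    have hS2v : ∫ z in S2, f z = 4 * n * m 0 := by simpa [S2] using h2
    rw [hS2v, show Cb / n * (4 * n * m 0) = 4 * Cb * m 0 by field_simp] at hle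
    have h3 : g * (2 * n * m 0) ≤ g * ∫ z in S2, f z * b z ^ 2 :=
      mul_le_mul_of_nonneg_left (hS1v ▸ hlow) hg.le
    simp only [g] at h3 ⊢
    linarith
  have hm0 : m 0 = 0 := by
    have hnn : 0 ≤ m 0 :=
      setIntegral_nonneg (h.measurableSet_shell _ _) fun z _ => weight_nonneg c0 σ z
    obtain ⟨n, hn⟩ := exists_nat_gt (4 * Cb / (2 * g))
    have hn0 : 0 < n := Nat.cast_pos.1 (lt_of_le_of_lt (by positivity : (0 : ℝ) ≤ _) hn)
    rw [div_lt_iff₀ (by linarith)] at hn
    refine le_antisymm (le_of_not_gt fun hp => ?_) hnn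
    have h9 := main n hn0
    have h10 := mul_lt_mul_of_pos_right hn hp
    linarith
  have hzero : ∀ y, 0 < u y → logRad y ∈ Ioo (0 : ℝ) 1 → c0 y = 0 := by
    intro y hy hly
    have hint := integrableOn_weight (σ := σ) h hcont 0 1
    have hae : ∀ᵐ x ∂volume.restrict (shell u 0 1), f x = 0 := by
      have : ∫ x in shell u 0 1, f x = 0 := by simpa [m] using hm0
      exact (setIntegral_eq_zero_iff_of_nonneg_ae (.of_forall fun x => weight_nonneg c0 σ x) hint).1 this
    by_contra hne
    set U := {x | 0 < u x ∧ logRad x ∈ Ioo (0 : ℝ) 1 ∧ c0 x ≠ 0}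
    have hU : IsOpen U := by
      have hc : ContinuousOn (fun x => (logRad x, c0 x)) {x | 0 < u x} :=
        (((contDiff_dot_self.continuous.continuousOn).log fun x hx =>
          (dot_self_pos (h.ne_zero_of_pos hx)).ne').div_const 2).prodMk
          (hcont.mono fun x hx => ⟨subset_closure hx, h.ne_zero_of_pos hx⟩)
      exact hc.isOpen_inter_preimage h.isOpen_pos (isOpen_Ioo.prod isOpen_compl_singleton)
    have hpos := hU.measure_pos volume ⟨y, hy, hly, hne⟩
    refine hpos.ne' (measure_mono_null ?_ (ae_iff.1 ((ae_restrict_iff' (h.measurableSet_shell _ _)).1 hae)))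
    intro x hx hh
    have hR := dot_self_pos (h.ne_zero_of_pos hx.1)
    exact (mul_pos (mul_pos (Real.exp_pos _) (inv_pos.2 hR)) (by
      have := hx.2.2; positivity : 0 < c0 x ^ 2)).ne' (hh ⟨hx.1, hx.2.1.1, hx.2.1.2.le⟩)
  set r := Real.exp (1 / 2 - logRad z)
  have hr : 0 < r := Real.exp_pos _
  have hzp : 0 < u (r • z) := by rw [h.homog r z hr]; exact mul_pos hr hz
  have h1 := hzero (r • z) hzp (by
    rw [logRad_smul hr (h.ne_zero_of_pos hz), Real.log_exp, sub_add_cancel]
    norm_num)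
  have h2 := hhom r z hr hz
  rw [h1, zero_pow two_ne_zero] at h2
  exact sq_eq_zero_iff.1 ((mul_eq_zero.1 h2.symm).resolve_left (Real.rpow_pos_of_pos hr _).ne')

/-- The cut-off avoids the vertex. -/
theorem zero_notMem_cutoff (σ : ℝ) {n : ℕ} (hn : 0 < n) :
    (0 : Fin d → ℝ) ∉ tsupport (cutoff σ n) := fun hh => by
  have := (tsupport_cutoff σ hn hh).1
  simp [dot] at this
  linarith [Real.exp_pos (-(4 * (n : ℝ)))]

/-- A homogeneous limit of a test family with constant above the Hardy constant vanishes. -/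
theorem vanish {c : ℝ → (Fin d → ℝ) → ℝ} (h : RegularCone u O w)
    (hP : ∀ y ∈ O, 0 < dot (grad w y) (grad w y)) (h0 : (0 : Fin d → ℝ) ∉ O) (hmin : IsMinimizer u)
    (hF : TestFamily u w O c c0 γ)
    (hhom : ∀ (r : ℝ) (z : Fin d → ℝ), 0 < r → 0 < u z → c0 (r • z) ^ 2 = r ^ (2 * s) * c0 z ^ 2)
    (hγs : (((d : ℝ) - 2) / 2 + s) ^ 2 < γ) {z : Fin d → ℝ} (hz : 0 < u z) : c0 z = 0 :=
  vanish_of_hardy h hF.cont (fun σ _ hn => test_ineq h hP h0 hmin hF (cutoff_contDiff σ hn)
    (cutoff_compact σ hn) (zero_notMem_cutoff σ hn)) hhom hγs hz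

end

end Vale.Agent.P098.Jet
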